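import Mathlib

/-! # Task G5a: extrapolation of sequences satisfying a linear recurrence -/

set_option autoImplicit false
noncomputable section
open Polynomial

namespace Crest.Agent.N265.Ext
variable {Λ : Type*} [CommRing Λ] {A : Type*} [AddCommGroup A] [Module Λ A]

lemma sum_add' (p q : Λ[X]) (a : ℕ → A) : (p + q).sum (fun i c => c • a i) =
    p.sum (fun i c => c • a i) + q.sum fun i c => c • a i :=
  Polynomial.sum_add_index _ _ _ (fun _ => zero_smul _ _) fun _ _ _ => add_smul _ _ _
lemma sum_mono' (i : ℕ) (c : Λ) (a : ℕ → A) :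
    (monomial i c).sum (fun i c => c • a i) = c • a i :=
  Polynomial.sum_monomial_index _ _ (zero_smul _ _)
lemma sum_range' (p : Λ[X]) {n : ℕ} (hn : p.natDegree < n) (a : ℕ → A) :
    p.sum (fun i c => c • a i) = ∑ i ∈ Finset.range n, p.coeff i • a i :=
  Polynomial.sum_over_range' p (f := fun i c => c • a i) (fun _ => zero_smul _ _) n hn

/-- `(p ⋆ a) k = ∑ i, p_i • a (k - i)` -/
def app (p : Λ[X]) (a : ℤ → A) (k : ℤ) : A := p.sum fun i c => c • a (k - i)
lemma app_add (p q : Λ[X]) (a : ℤ → A) (k : ℤ) : app (p + q) a k = app p a k + app q a k :=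
  Polynomial.sum_add_index _ _ _ (fun _ => zero_smul _ _) fun _ _ _ => add_smul _ _ _
lemma app_monomial (c : Λ) (i : ℕ) (a : ℤ → A) (k : ℤ) :
    app (monomial i c) a k = c • a (k - i) :=
  Polynomial.sum_monomial_index _ _ (zero_smul _ _)
lemma app_mul (p q : Λ[X]) (a : ℤ → A) : app (p * q) a = app p (app q a) := by
  funext k
  induction p using Polynomial.induction_on' with
  | add p p' h h' => rw [add_mul, app_add, app_add, h, h']
  | monomial i c =>
    rw [app_monomial]
    induction q using Polynomial.induction_on' with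
    | add q q' h h' => rw [mul_add, app_add, app_add, h, h', smul_add]
    | monomial j d =>
      rw [monomial_mul_monomial, app_monomial, app_monomial, mul_smul, Nat.cast_add, sub_sub]
lemma app_seq_add (p : Λ[X]) (a b : ℤ → A) : app p (a + b) = app p a + app p b := by
  funext k
  simp only [app, Polynomial.sum, Pi.add_apply, smul_add, Finset.sum_add_distrib]
lemma app_eq_sum (p : Λ[X]) {n : ℕ} (hn : p.natDegree ≤ n) (a : ℤ → A) (k : ℤ) :
    app p a k = ∑ i ∈ Finset.range (n + 1), p.coeff i • a (k - i) :=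
  sum_range' p (Nat.lt_succ_of_le hn) fun i => a (k - i)
lemma app_seq_sub (p : Λ[X]) (a b : ℤ → A) (k : ℤ) :
    app p (a - b) k = app p a k - app p b k := by
  simp only [app, Polynomial.sum, Pi.sub_apply, smul_sub, Finset.sum_sub_distrib]
lemma app_congr (p : Λ[X]) {n : ℕ} (hn : p.natDegree ≤ n) {a b : ℤ → A} {k : ℤ}
    (h : ∀ j, k - n ≤ j → j ≤ k → a j = b j) : app p a k = app p b k := by
  rw [app_eq_sum p hn, app_eq_sum p hn]
  refine Finset.sum_congr rfl fun i hi => ?_
  have := Finset.mem_range.1 hi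
  rw [h _ (by omega) (by omega)]
/-- a solution for `k ≥ k₀` that vanishes eventually vanishes from `k₀ - n` on -/
lemma uniq_from {p : Λ[X]} {n : ℕ} (hn : p.natDegree ≤ n) (hu : IsUnit (p.coeff n)) {a : ℤ → A}
    {k₀ k₁ : ℤ} (ha : ∀ k, k₀ ≤ k → app p a k = 0) (h0 : ∀ k, k₁ ≤ k → a k = 0) :
    ∀ k, k₀ - n ≤ k → a k = 0 := by
  have key : ∀ m : ℕ, ∀ k, k₀ - n ≤ k → k₁ - m ≤ k → a k = 0 := by
    intro m
    induction m with
    | zero => exact fun k _ hk => h0 k (by simpa using hk)
    | succ m ih =>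
      intro k hk hk'
      by_cases h1 : k₁ - m ≤ k
      · exact ih k hk h1
      have h2 := ha (k + n) (by omega)
      rw [app_eq_sum p hn, Finset.sum_range_succ, Finset.sum_eq_zero fun i hi => by
        have := Finset.mem_range.1 hi
        rw [ih _ (by omega) (by omega), smul_zero], zero_add, add_sub_cancel_right] at h2
      exact (hu.smul_eq_zero).1 h2
  exact fun k hk => key (k₁ - k).toNat k hk (by omega)
/-- uniqueness of the backward extension -/
lemma uniq {p : Λ[X]} {n : ℕ} (hn : p.natDegree ≤ n) (hu : IsUnit (p.coeff n)) {a : ℤ → A}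
    (ha : ∀ k, app p a k = 0) {k₀ : ℤ} (h0 : ∀ k, k₀ ≤ k → a k = 0) : a = 0 :=
  funext fun k => uniq_from hn hu (k₀ := k) (fun j _ => ha j) h0 k (by omega)
/-- existence of the backward extension -/
lemma exists_ext {p : Λ[X]} {n : ℕ} (hn : p.natDegree ≤ n) (hu : IsUnit (p.coeff n)) {a : ℤ → A}
    {k₀ : ℤ} (ha : ∀ k, k₀ ≤ k → app p a k = 0) :
    ∃ b : ℤ → A, (∀ k, app p b k = 0) ∧ ∀ k, k₀ - n ≤ k → b k = a k := by
  classical
  obtain ⟨u, hu'⟩ := hu
  have key : ∀ m : ℕ, ∃ b : ℤ → A, (∀ k, k₀ - m ≤ k → app p b k = 0) ∧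
      ∀ k, k₀ - n ≤ k → b k = a k := by
    intro m
    induction m with
    | zero => exact ⟨a, fun k hk => ha k (by simpa using hk), fun _ _ => rfl⟩
    | succ m ih =>
      obtain ⟨b, h1, h2⟩ := ih
      refine ⟨Function.update b (k₀ - (m + 1) - n) (-((u⁻¹ : Λˣ) : Λ) •
        ∑ i ∈ Finset.range n, p.coeff i • b (k₀ - (m + 1) - i)), fun k hk => ?_,
        fun k hk => by rw [Function.update_of_ne (by omega), h2 k hk]⟩
      by_cases h3 : k₀ - m ≤ k
      · rw [← h1 k h3]
        exact app_congr p hn fun j hj _ => Function.update_of_ne (by omega) _ _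
      · obtain rfl : k = k₀ - (m + 1) := by omega
        rw [app_eq_sum p hn, Finset.sum_range_succ, Function.update_self, ← hu', smul_smul,
          mul_neg, Units.mul_inv, neg_one_smul, add_neg_eq_zero]
        refine Finset.sum_congr rfl fun i hi => ?_
        have := Finset.mem_range.1 hi
        rw [Function.update_of_ne (by omega)]
  choose b h1 h2 using key
  have hc : ∀ m m' : ℕ, m ≤ m' → ∀ k, k₀ - m - n ≤ k → b m k = b m' k := fun m m' hm k hk => by
    have := uniq_from hn ⟨u, hu'⟩ (a := b m - b m') (k₀ := k₀ - m) (k₁ := k₀ - n)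
      (fun k hk => by rw [app_seq_sub, h1 m k hk, h1 m' k (by omega), sub_zero])
      (fun k hk => by rw [Pi.sub_apply, h2 m k hk, h2 m' k hk, sub_self]) k hk
    exact sub_eq_zero.1 this
  refine ⟨fun k => b (k₀ - k).toNat k, fun k => ?_, fun k hk => h2 _ k hk⟩
  rw [← h1 ((k₀ - k).toNat + n) k (by omega)]
  exact app_congr p hn fun j hj hj' => hc _ _ (by omega) j (by omega)
/-- the residue functional of a monic polynomial of degree `n` -/
def res (q : Λ[X]) (n : ℕ) (φ : Λ[X]) : Λ := (φ %ₘ q).coeff (n - 1)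
/-- if `a` is killed by the monic `q` (acting by forward shifts) and `a 0 = … = a (n-2) = 0`,
`a (n-1) = c`, then `∑ φ_i a_i = res φ • c` -/
lemma sum_eq_res {q : Λ[X]} {n : ℕ} (hq : q.Monic) (hn : q.natDegree = n) (h1 : 1 ≤ n)
    {a : ℕ → A} (ha : ∀ k, q.sum (fun i c => c • a (k + i)) = 0)
    (h0 : ∀ k, k + 1 < n → a k = 0) (φ : Λ[X]) :
    φ.sum (fun i c => c • a i) = res q n φ • a (n - 1) := by
  have hm : ∀ (p : Λ[X]) (k : ℕ) (c : Λ), (p * monomial k c).sum (fun i c => c • a i) =
      c • p.sum fun i d => d • a (k + i) := by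
    intro p k c
    induction p using Polynomial.induction_on' with
    | add p p' h h' =>
      rw [add_mul, sum_add', h, h', sum_add' p p' fun i => a (k + i), smul_add]
    | monomial i d =>
      rw [monomial_mul_monomial, sum_mono', sum_mono' i d fun i => a (k + i), mul_comm, mul_smul,
        add_comm]
  have hq0 : ∀ ψ : Λ[X], (q * ψ).sum (fun i c => c • a i) = 0 := by
    intro ψ
    induction ψ using Polynomial.induction_on' with
    | add p p' h h' => rw [mul_add, sum_add', h, h', add_zero]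
    | monomial k c => rw [hm, ha, smul_zero]
  have hlt : (φ %ₘ q).natDegree < n := hn ▸ natDegree_modByMonic_lt φ hq (by
    rintro rfl
    rw [natDegree_one] at hn
    omega)
  conv_lhs => rw [← modByMonic_add_div φ q]
  obtain ⟨m, rfl⟩ : ∃ m, n = m + 1 := ⟨n - 1, by omega⟩
  rw [sum_add', hq0, add_zero, sum_range' _ hlt,
    Finset.sum_range_succ, Finset.sum_eq_zero fun i hi => by
      rw [h0 i (by have := Finset.mem_range.1 hi; omega), smul_zero], zero_add]
  rfl

end Crest.Agent.N265.Ext
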