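import Crest.Agent.N265.G.Grad
import Crest.Agent.N265.Sp.Basic
import Crest.Agent.N265.Core
import Crest.Agent.N265.Sp.Elim
import Crest.Agent.N265.G.Ext

-- ▼ part N265/G/Mod
section

/-! # Task G2: constructions of graded modules -/

set_option autoImplicit false
noncomputable section
open MvPolynomial

namespace Crest.Agent.N265
namespace GM

lemma eq_of_cp {M : GM} {m m' : M.M} (h : ∀ d, M.cp d m = M.cp d m') : m = m' := by
  obtain ⟨s, hs, -⟩ := M.exists_sum_cp (m - m')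
  rw [← sub_eq_zero, ← hs]
  exact Finset.sum_eq_zero fun d _ => by rw [map_sub, h d, sub_self]

/-- graded submodule -/
def sub (M : GM) (N : Submodule R M.M) (h : M.Stab N) : GM where
  M := N
  fin := M.fin.imp fun _ hV v hv m => Subtype.ext (hV v hv m.1)
  g := (M.g.domRestrict N).codRestrict N fun m => h _ m.2
  diag := fun m => by
    obtain ⟨s, hs, -⟩ := M.exists_sum_cp m.1
    have : m = ∑ d ∈ s, (⟨M.cp d m.1, h.cp_mem m.2 d⟩ : N) :=
      Subtype.ext (by rw [AddSubmonoidClass.coe_finsetSum]; exact hs.symm)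
    rw [this]
    exact sum_mem fun d _ => AddSubgroup.subset_closure ⟨d, Subtype.ext (M.cp_mem d m.1)⟩
/-- graded quotient -/
def quot (M : GM) (N : Submodule R M.M) (h : M.Stab N) : GM where
  M := M.M ⧸ N
  fin := M.fin.imp fun _ hV v hv m => by
    induction m using Submodule.Quotient.induction_on with
    | H m => rw [← Submodule.Quotient.mk_smul, hV v hv m, Submodule.Quotient.mk_zero]
  g := N.mapQ N M.g h
  diag := fun q => by
    induction q using Submodule.Quotient.induction_on with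
    | H m =>
      obtain ⟨s, hs, -⟩ := M.exists_sum_cp m
      have : (Submodule.Quotient.mk m : M.M ⧸ N) = ∑ d ∈ s, N.mkQ (M.cp d m) := by
        rw [← map_sum, hs]; rfl
      rw [this]
      refine sum_mem fun d _ => AddSubgroup.subset_closure ⟨d, ?_⟩
      exact congrArg (Submodule.Quotient.mk (p := N)) (M.cp_mem d m)
/-- graded subquotient `N / (N ⊓ P)` -/
def sq (M : GM) (N P : Submodule R M.M) (hN : M.Stab N) (hP : M.Stab P) : GM :=
  (M.sub N hN).quot (P.comap N.subtype) fun _ hm => hP _ hm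
/-- the zero module -/
def zero : GM where
  M := PUnit
  fin := ⟨∅, fun _ _ _ => rfl⟩
  g := 0
  diag := fun _ => zero_mem _
/-- direct sum -/
def prod (A B : GM) : GM where
  M := A.M × B.M
  fin := by
    classical
    obtain ⟨V, hV⟩ := A.fin
    obtain ⟨W, hW⟩ := B.fin
    refine ⟨V ∪ W, fun v hv m => Prod.ext (hV v (fun h => hv ?_) m.1) (hW v (fun h => hv ?_) m.2)⟩
    · exact Finset.mem_union_left _ h
    · exact Finset.mem_union_right _ h
  g := { toFun := fun m => (A.g m.1, B.g m.2)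
         map_add' := by intro a b; simp
         map_smul' := by intro r m; simp }
  diag := fun m => by
    obtain ⟨s, hs, -⟩ := A.exists_sum_cp m.1
    obtain ⟨t, ht, -⟩ := B.exists_sum_cp m.2
    have : m = ∑ d ∈ s, ((A.cp d m.1, 0) : A.M × B.M) + ∑ d ∈ t, ((0, B.cp d m.2) : A.M × B.M) := by
      ext <;> simp [Prod.fst_sum, Prod.snd_sum, hs, ht]
    rw [this]
    refine add_mem (sum_mem fun d _ => AddSubgroup.subset_closure ⟨d, ?_⟩)
      (sum_mem fun d _ => AddSubgroup.subset_closure ⟨d, ?_⟩)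
    · exact Prod.ext (A.cp_mem d m.1) (by simp)
    · exact Prod.ext (by simp) (B.cp_mem d m.2)
/-- `⊕ M(deg i)` -/
def pw {ι : Type} [Fintype ι] (deg : ι → D) (M : GM) : GM where
  M := ι → M.M
  fin := M.fin.imp fun _ hV v hv m => funext fun i => hV v hv (m i)
  g := { toFun := fun m i => (C (chi (-deg i)) : R) • M.g (m i)
         map_add' := by intro a b; funext i; simp
         map_smul' := by
           intro r m; funext i; simp only [Pi.smul_apply, LinearMap.map_smulₛₗ]; rw [smul_comm] }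
  diag := fun m => by
    classical
    rw [← Finset.univ_sum_single m]
    refine sum_mem fun i _ => ?_
    obtain ⟨s, hs, -⟩ := M.exists_sum_cp (m i)
    have : (Pi.single i (m i) : ι → M.M) = ∑ d ∈ s, Pi.single i (M.cp d (m i)) := by
      funext j
      by_cases hj : j = i
      · subst hj; simp [hs]
      · simp [hj]
    rw [this]
    refine sum_mem fun d _ => AddSubgroup.subset_closure ⟨-deg i + d, funext fun j => ?_⟩
    by_cases hj : j = i
    · subst hj
      have := M.cp_mem d (m j)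
      rw [mem_gr] at this
      simp only [LinearMap.coe_mk, AddHom.coe_mk, Pi.single_eq_same, Pi.smul_apply, this, chi_add,
        map_mul, mul_smul]
    · simp [hj]
/-- `R ⧸ J` for a stable ideal containing almost all variables -/
def Oid (J : Ideal R) (hJ : ∀ r ∈ J, gam r ∈ J) (hV : ∃ V : Finset Var, ∀ v ∉ V, (X v : R) ∈ J) :
    GM where
  M := R ⧸ J
  noeth := by
    obtain ⟨V, hV⟩ := hV
    have := noeth_quot J V hV
    have : RingHomSurjective (Ideal.Quotient.mk J) := ⟨Ideal.Quotient.mk_surjective⟩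
    let l : (R ⧸ J) →ₛₗ[Ideal.Quotient.mk J] (R ⧸ J) :=
      { toFun := id, map_add' := fun _ _ => rfl, map_smul' := fun _ _ => rfl }
    exact (LinearMap.isNoetherian_iff_of_bijective l Function.bijective_id).2 inferInstance
  fin := hV.imp fun V hV v hv m => by
    change Ideal.Quotient.mk J (X v) * m = 0
    rw [Ideal.Quotient.eq_zero_iff_mem.2 (hV v hv), zero_mul]
  g := Submodule.mapQ J J
    { toFun := gam, map_add' := map_add gam, map_smul' := fun a b => map_mul gam a b } hJ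
  diag := fun q => by
    induction q using Submodule.Quotient.induction_on with
    | H r =>
      obtain ⟨s, hs, -⟩ := exists_sum_hc r
      have : (Submodule.Quotient.mk r : R ⧸ J) = ∑ d ∈ s, Submodule.mkQ J (hc d r) := by
        rw [← map_sum, hs]; rfl
      rw [this]
      refine sum_mem fun d _ => AddSubgroup.subset_closure ⟨d, ?_⟩
      rw [Submodule.mkQ_apply, Submodule.mapQ_apply, ← Submodule.Quotient.mk_smul]
      exact congrArg _ (hc_hmg d r)
/-- the structure sheaf -/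
def O (X : Spc) : GM :=
  Oid X.I (fun _ => X.gam_mem_I) (X.exists_V.imp fun _ h => h.2)

/-- the part of `M` whose degrees live in the blocks `B` -/
def pieceSub (B : Finset ℕ) (M : GM) : AddSubgroup M.M :=
  AddSubgroup.closure {m | ∃ d ∈ DS B, m ∈ M.gr d}
lemma kill_smul_mem {B : Finset ℕ} {M : GM} (r : R) {m : M.M} (hm : m ∈ pieceSub B M) :
    kill B r • m ∈ pieceSub B M := by
  induction hm using AddSubgroup.closure_induction with
  | mem m hm =>
    obtain ⟨d, hd, hm⟩ := hm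
    obtain ⟨s, hs, -⟩ := exists_sum_hc r
    rw [← hs, map_sum, Finset.sum_smul]
    refine sum_mem fun e _ => ?_
    by_cases he : e ∈ DS B
    · exact AddSubgroup.subset_closure
        ⟨e + d, add_mem he hd, M.smul_mem_gr ((hc_hmg e r).kill B) hm⟩
    · rw [(hc_hmg e r).kill_eq_zero he, zero_smul]; exact zero_mem _
  | zero => rw [smul_zero]; exact zero_mem _
  | add a b _ _ ha hb => rw [smul_add]; exact add_mem ha hb
  | neg a _ ha => rw [smul_neg]; exact neg_mem ha
lemma mem_pieceSub {B : Finset ℕ} {M : GM} {m : M.M} :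
    m ∈ pieceSub B M ↔ ∀ d, d ∉ DS B → M.cp d m = 0 := by
  constructor
  · intro hm d hd
    induction hm using AddSubgroup.closure_induction with
    | mem m hm =>
      obtain ⟨e, he, hm⟩ := hm
      exact M.cp_of_mem_ne hm fun h => hd (h ▸ he)
    | zero => exact map_zero _
    | add a b _ _ ha hb => rw [map_add, ha, hb, add_zero]
    | neg a _ ha => rw [map_neg, ha, neg_zero]
  · intro h
    obtain ⟨s, hs, -⟩ := M.exists_sum_cp m
    rw [← hs]
    refine sum_mem fun d _ => ?_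
    by_cases hd : d ∈ DS B
    · exact AddSubgroup.subset_closure ⟨d, hd, M.cp_mem d m⟩
    · rw [h d hd]; exact zero_mem _
lemma cp_mem_pieceSub {B : Finset ℕ} {M : GM} {m : M.M} (hm : m ∈ pieceSub B M) (d : D) :
    M.cp d m ∈ pieceSub B M := by
  by_cases hd : d ∈ DS B
  · exact AddSubgroup.subset_closure ⟨d, hd, M.cp_mem d m⟩
  · rw [mem_pieceSub.1 hm d hd]; exact zero_mem _
/-- the part of an element in the degrees of `B` -/
lemma exists_pieceSub (B : Finset ℕ) {M : GM} (m : M.M) :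
    ∃ m' ∈ pieceSub B M, ∀ d ∈ DS B, M.cp d m' = M.cp d m := by
  classical
  obtain ⟨s, -, hs⟩ := M.exists_sum_cp m
  refine ⟨∑ e ∈ s.filter (· ∈ DS B), M.cp e m, sum_mem fun e he =>
    AddSubgroup.subset_closure ⟨e, (Finset.mem_filter.1 he).2, M.cp_mem e m⟩, fun d hd => ?_⟩
  rw [map_sum, Finset.sum_eq_single d]
  · exact M.cp_of_mem (M.cp_mem d m)
  · exact fun e _ he => M.cp_of_mem_ne (M.cp_mem e m) he.symm
  · intro h
    rw [hs d fun h' => h (Finset.mem_filter.2 ⟨h', hd⟩), map_zero]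
/-- a homogeneous polynomial whose degree lives in `B` only involves the variables of `B` -/
lemma _root_.Crest.Agent.N265.Hmg.kill_eq_self {d : D} {r : R} (h : Hmg d r) {B : Finset ℕ}
    (hd : d ∈ DS B) : N265.kill B r = r := by
  classical
  rw [hmg_iff] at h
  conv_lhs => rw [r.as_sum]
  conv_rhs => rw [r.as_sum]
  rw [map_sum]
  refine Finset.sum_congr rfl fun u hu => ?_
  have hw := h (mem_support_iff.1 hu)
  rw [N265.kill, aeval_monomial, monomial_eq, algebraMap_eq]
  congr 1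
  refine Finsupp.prod_congr fun v hv => ?_
  rw [if_pos]
  by_contra hB
  have h0 : (Finsupp.weight vdeg u) (some v.1) = 0 := by rw [hw]; exact hd _ hB
  rw [Finsupp.weight_apply, Finsupp.sum, Finsupp.finsetSum_apply] at h0
  have h1 := (Finset.sum_eq_zero_iff_of_nonneg (fun w _ => by
    by_cases hw : w.1 = v.1 <;> simp [vdeg, eB, eT, hw])).1 h0 v hv
  simp [vdeg, eB, eT] at h1
  exact Finsupp.mem_support_iff.1 hv h1
lemma cp_kill_smul {B : Finset ℕ} {M : GM} (r : R) {m : M.M} (hm : m ∈ pieceSub B M) {d : D}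
    (hd : d ∈ DS B) : M.cp d (kill B r • m) = M.cp d (r • m) := by
  induction hm using AddSubgroup.closure_induction with
  | mem m hm =>
    obtain ⟨e, he, hm⟩ := hm
    obtain ⟨s, hs, -⟩ := exists_sum_hc r
    rw [← hs, map_sum, Finset.sum_smul, Finset.sum_smul, map_sum, map_sum]
    refine Finset.sum_congr rfl fun f _ => ?_
    by_cases hf : f ∈ DS B
    · rw [(hc_hmg f r).kill_eq_self hf]
    · rw [(hc_hmg f r).kill_eq_zero hf, zero_smul, map_zero,
        M.cp_of_mem_ne (M.smul_mem_gr (hc_hmg f r) hm)]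
      rintro rfl
      exact hf (by simpa using sub_mem hd he)
  | zero => rw [smul_zero, smul_zero]
  | add a b _ _ ha hb => rw [smul_add, smul_add, map_add, map_add, ha, hb]
  | neg a _ ha => rw [smul_neg, smul_neg, map_neg, map_neg, ha]
/-- carrier of the piece, `R` acts through `kill B` -/
def PieceT (B : Finset ℕ) (M : GM) : Type := pieceSub B M
instance (B : Finset ℕ) (M : GM) : AddCommGroup (PieceT B M) :=
  inferInstanceAs (AddCommGroup (pieceSub B M))
/-- the underlying element -/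
def PieceT.val {B : Finset ℕ} {M : GM} (m : PieceT B M) : M.M := Subtype.val m
lemma PieceT.ext {B : Finset ℕ} {M : GM} {m m' : PieceT B M} (h : m.val = m'.val) : m = m' :=
  Subtype.ext h
instance (B : Finset ℕ) (M : GM) : Module R (PieceT B M) where
  smul r m := (⟨kill B r • m.val, kill_smul_mem r (Subtype.property m)⟩ : pieceSub B M)
  one_smul m := PieceT.ext (by change kill B 1 • m.val = _; simp)
  mul_smul a b m := PieceT.ext (by
    change kill B (a * b) • m.val = kill B a • kill B b • m.val; rw [map_mul, mul_smul])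
  smul_zero a := PieceT.ext (by change kill B a • (0 : M.M) = 0; simp)
  smul_add a m n := PieceT.ext (by
    change kill B a • (m.val + n.val) = kill B a • m.val + kill B a • n.val; rw [smul_add])
  add_smul a b m := PieceT.ext (by
    change kill B (a + b) • m.val = kill B a • m.val + kill B b • m.val; rw [map_add, add_smul])
  zero_smul m := PieceT.ext (by change kill B 0 • m.val = 0; simp)
lemma PieceT.val_smul {B : Finset ℕ} {M : GM} (r : R) (m : PieceT B M) :
    (r • m).val = kill B r • m.val := rfl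
lemma g_mem_pieceSub {B : Finset ℕ} {M : GM} {m : M.M} (hm : m ∈ pieceSub B M) :
    M.g m ∈ pieceSub B M := by
  induction hm using AddSubgroup.closure_induction with
  | mem m hm =>
    obtain ⟨d, hd, hm⟩ := hm
    refine AddSubgroup.subset_closure ⟨d, hd, ?_⟩
    rw [mem_gr.1 hm]
    exact (M.gr d).smul_mem (chi d) hm
  | zero => rw [map_zero]; exact zero_mem _
  | add a b _ _ ha hb => rw [map_add]; exact add_mem ha hb
  | neg a _ ha => rw [map_neg]; exact neg_mem ha
lemma PieceT.mem_of_span {B : Finset ℕ} {M : GM} (N : Submodule R (PieceT B M)) {m : PieceT B M}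
    (hm : m.val ∈ Submodule.span R (PieceT.val '' (N : Set (PieceT B M)))) : m ∈ N := by
  have key : ∀ x ∈ Submodule.span R (PieceT.val '' (N : Set (PieceT B M))), ∀ r : R,
      ∃ n ∈ N, ∀ d ∈ DS B, M.cp d n.val = M.cp d (r • x) := by
    intro x hx
    induction hx using Submodule.span_induction with
    | mem x hx =>
      obtain ⟨n, hn, rfl⟩ := hx
      exact fun r => ⟨r • n, N.smul_mem r hn, fun d hd => cp_kill_smul r (Subtype.property n) hd⟩
    | zero => exact fun r => ⟨0, zero_mem _, fun d _ => by rw [smul_zero]; rfl⟩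
    | add a b _ _ ha hb =>
      intro r
      obtain ⟨n, hn, h⟩ := ha r
      obtain ⟨n', hn', h'⟩ := hb r
      refine ⟨n + n', add_mem hn hn', fun d hd => ?_⟩
      rw [smul_add, map_add, ← h d hd, ← h' d hd, ← map_add]; rfl
    | smul c a _ ha => intro r; rw [← mul_smul]; exact ha _
  obtain ⟨n, hn, h⟩ := key _ hm 1
  have : m = n := PieceT.ext (eq_of_cp fun d => by
    by_cases hd : d ∈ DS B
    · rw [h d hd, one_smul]
    · rw [show M.cp d m.val = 0 from mem_pieceSub.1 (Subtype.property m) d hd,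
        show M.cp d n.val = 0 from mem_pieceSub.1 (Subtype.property n) d hd])
  exact this ▸ hn
/-- degree zero part in the blocks outside `B`, as a module over the variables of `B` -/
def piece (B : Finset ℕ) (M : GM) : GM where
  M := PieceT B M
  noeth := by
    rw [isNoetherian_iff']
    refine StrictMono.wellFoundedGT (f := fun N : Submodule R (PieceT B M) =>
      Submodule.span R (PieceT.val '' (N : Set (PieceT B M)))) fun N N' h => ?_
    refine lt_of_le_not_ge (Submodule.span_mono (Set.image_mono h.le)) fun h' => h.not_ge ?_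
    exact fun m hm => PieceT.mem_of_span N (h' (Submodule.subset_span ⟨m, hm, rfl⟩))
  fin := M.fin.imp fun V hV v hv m => PieceT.ext (by
    change kill B (X v) • m.val = 0
    by_cases h : v.1 ∈ B <;> simp [kill, h, hV v hv])
  g := { toFun := fun m => (⟨M.g m.val, g_mem_pieceSub (Subtype.property m)⟩ : pieceSub B M)
         map_add' := fun a b => PieceT.ext (map_add M.g a.val b.val)
         map_smul' := fun r m => PieceT.ext (by
           change M.g (kill B r • m.val) = kill B (gam r) • M.g m.val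
           rw [LinearMap.map_smulₛₗ, gam_kill]) }
  diag := fun m => by
    obtain ⟨s, hs, -⟩ := M.exists_sum_cp m.val
    have : m = ∑ d ∈ s, (⟨M.cp d m.val, cp_mem_pieceSub (Subtype.property m) d⟩ : pieceSub B M) :=
      Subtype.ext (by rw [AddSubmonoidClass.coe_finsetSum]; exact hs.symm)
    rw [this]
    refine sum_mem fun d _ => AddSubgroup.subset_closure ⟨d, PieceT.ext ?_⟩
    change M.g (M.cp d m.val) = kill B (C (chi d)) • M.cp d m.val
    rw [M.cp_mem d m.val]; simp [kill]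

variable {M : GM}
lemma sub_gr {N : Submodule R M.M} (h : M.Stab N) {d : D} {m : N} :
    (m : (M.sub N h).M) ∈ (M.sub N h).gr d ↔ m.1 ∈ M.gr d := Subtype.ext_iff
lemma quot_gr {N : Submodule R M.M} (h : M.Stab N) {d : D} {q : M.M ⧸ N} :
    (q : (M.quot N h).M) ∈ (M.quot N h).gr d ↔ ∃ m ∈ M.gr d, Submodule.Quotient.mk m = q := by
  have hf : Deg0 (M := M) (N := M.quot N h) N.mkQ := fun _ => rfl
  constructor
  · intro hq
    obtain ⟨m, rfl⟩ := Submodule.Quotient.mk_surjective N q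
    exact ⟨M.cp d m, M.cp_mem d m, (hf.map_cp d m).trans ((M.quot N h).cp_of_mem hq)⟩
  · rintro ⟨m, hm, rfl⟩
    exact hf.map_gr hm
lemma pw_gr {ι : Type} [Fintype ι] (deg : ι → D) {d : D} {m : ι → M.M} :
    (m : (pw deg M).M) ∈ (pw deg M).gr d ↔ ∀ i, m i ∈ M.gr (d + deg i) := by
  refine funext_iff.trans (forall_congr' fun i => ?_)
  rw [← shift_gr]; rfl
lemma piece_gr {B : Finset ℕ} {d : D} {m : PieceT B M} :
    (m : (piece B M).M) ∈ (piece B M).gr d ↔ m.val ∈ M.gr d := by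
  refine Subtype.ext_iff.trans ?_
  change M.g m.val = kill B (C (chi d)) • m.val ↔ _
  rw [mem_gr]; simp [kill]
lemma Oid_gr {J : Ideal R} (hJ hV) {d : D} {q : R ⧸ J} :
    (q : (Oid J hJ hV).M) ∈ (Oid J hJ hV).gr d ↔ ∃ r, Hmg d r ∧ Ideal.Quotient.mk J r = q := by
  have key : ∀ (e : D) (r : R), Hmg e r →
      (Ideal.Quotient.mk J r : (Oid J hJ hV).M) ∈ (Oid J hJ hV).gr e := fun e r hr =>
    congrArg (Ideal.Quotient.mk J) hr
  constructor
  · intro hq
    obtain ⟨r, rfl⟩ := Ideal.Quotient.mk_surjective q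
    refine ⟨hc d r, hc_hmg d r, ?_⟩
    have h1 := (Oid J hJ hV).cp_smul' (key 0 1 Hmg.one) d r
    have h2 : ∀ s : R, s • (Ideal.Quotient.mk J 1 : R ⧸ J) = Ideal.Quotient.mk J s :=
      fun s => congrArg (Ideal.Quotient.mk J) (mul_one s)
    rw [add_zero] at h1
    exact (h2 _).symm.trans (h1.symm.trans
      ((congrArg ((Oid J hJ hV).cp d) (h2 r)).trans ((Oid J hJ hV).cp_of_mem hq)))
  · rintro ⟨r, hr, rfl⟩
    exact key d r hr

lemma deg0_subtype {N : Submodule R M.M} (h : M.Stab N) :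
    Deg0 (M := M.sub N h) (N := M) N.subtype := fun _ => rfl
lemma deg0_mkQ {N : Submodule R M.M} (h : M.Stab N) :
    Deg0 (M := M) (N := M.quot N h) N.mkQ := fun _ => rfl
lemma ses_sub_quot {N : Submodule R M.M} (h : M.Stab N) : SES (M.sub N h) M (M.quot N h) :=
  ⟨N.subtype, N.mkQ, deg0_subtype h, deg0_mkQ h, Subtype.val_injective,
    LinearMap.exact_subtype_mkQ N, Submodule.mkQ_surjective N⟩
lemma ses_prod (A B : GM) : SES A (prod A B) B :=
  ⟨LinearMap.inl R A.M B.M, LinearMap.snd R A.M B.M, fun _ => Prod.ext rfl (map_zero B.g).symm,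
    fun _ => rfl, LinearMap.inl_injective, Function.Exact.inl_snd, LinearMap.snd_surjective⟩
lemma Deg0.shift {A B : GM} {f : A.M →ₗ[R] B.M} (hf : Deg0 f) (d : D) :
    Deg0 (M := A.shift d) (N := B.shift d) f := fun m =>
  (f.map_smul (C (chi (-d)) : R) (A.g m)).trans (congrArg _ (hf m))
/-- a degree zero map induces a map of pieces -/
def pieceMap {A B : GM} (S : Finset ℕ) (f : A.M →ₗ[R] B.M) (hf : Deg0 f) :
    (piece S A).M →ₗ[R] (piece S B).M where
  toFun m := (⟨f (PieceT.val m), mem_pieceSub.2 fun d hd => by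
    rw [← hf.map_cp, show A.cp d (PieceT.val m) = 0 from
      mem_pieceSub.1 (Subtype.property m) d hd, map_zero]⟩ : pieceSub S B)
  map_add' a b := PieceT.ext (map_add f (PieceT.val a) (PieceT.val b))
  map_smul' r a := PieceT.ext (f.map_smul (kill S r) (PieceT.val a))
lemma deg0_pieceMap {A B : GM} (S : Finset ℕ) (f : A.M →ₗ[R] B.M) (hf : Deg0 f) :
    Deg0 (pieceMap S f hf) := fun m => PieceT.ext (hf (PieceT.val m))
/-- preimages of elements of the piece can be taken in the piece -/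
lemma exists_pieceMap_eq {A B : GM} (S : Finset ℕ) (f : A.M →ₗ[R] B.M) (hf : Deg0 f)
    (b : PieceT S B) {a : A.M} (h : f a = b.val) : ∃ a' : PieceT S A, pieceMap S f hf a' = b := by
  obtain ⟨a', ha', h'⟩ := exists_pieceSub S a
  refine ⟨(⟨a', ha'⟩ : pieceSub S A), PieceT.ext (eq_of_cp fun d => ?_)⟩
  change B.cp d (f a') = _
  rw [← hf.map_cp]
  by_cases hd : d ∈ DS S
  · rw [h' d hd, hf.map_cp, h]
  · rw [mem_pieceSub.1 ha' d hd, map_zero]
    exact (mem_pieceSub.1 (Subtype.property b) d hd).symm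
lemma SES.shift {A B C : GM} (h : SES A B C) (d : D) :
    SES (A.shift d) (B.shift d) (C.shift d) := by
  obtain ⟨f, p, hf, hp, h⟩ := h
  exact ⟨f, p, hf.shift d, hp.shift d, h⟩
lemma SES.piece {A B C : GM} (h : SES A B C) (S : Finset ℕ) :
    SES (piece S A) (piece S B) (piece S C) := by
  obtain ⟨f, p, hf, hp, hi, he, hs⟩ := h
  refine ⟨pieceMap S f hf, pieceMap S p hp, deg0_pieceMap S f hf, deg0_pieceMap S p hp,
    fun a b h => PieceT.ext (hi (congrArg PieceT.val h)), fun b => ⟨fun hb => ?_, ?_⟩, fun c => ?_⟩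
  · obtain ⟨a, ha⟩ := (he (PieceT.val b)).1 (congrArg PieceT.val hb)
    exact exists_pieceMap_eq S f hf b ha
  · rintro ⟨a, rfl⟩
    exact PieceT.ext (he.apply_apply_eq_zero (PieceT.val a))
  · obtain ⟨b, hb⟩ := hs (PieceT.val c)
    exact exists_pieceMap_eq S p hp c hb
lemma LocSES.shift {X : Spc} {A B C : GM} (h : LocSES X A B C) (d : D) :
    LocSES X (A.shift d) (B.shift d) (C.shift d) := by
  obtain ⟨f, p, hf, hp, h⟩ := h
  exact ⟨f, p, hf.shift d, hp.shift d, h⟩

/-- a polynomial matrix of degree zero acts `⊕ M(a i) → ⊕ M(b j)` -/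
def mat {ι κ : Type} [Fintype ι] [Fintype κ] (a : ι → D) (b : κ → D) (Φ : Matrix κ ι R) (M : GM) :
    (pw a M).M →ₗ[R] (pw b M).M where
  toFun m j := ∑ i, Φ j i • (m : ι → M.M) i
  map_add' a b := funext fun j => by
    change ∑ i, Φ j i • ((a : ι → M.M) i + (b : ι → M.M) i) = _
    simp only [smul_add, Finset.sum_add_distrib]; rfl
  map_smul' r a := funext fun j => by
    change ∑ i, Φ j i • r • (a : ι → M.M) i = r • ∑ i, Φ j i • (a : ι → M.M) i
    rw [Finset.smul_sum]
    exact Finset.sum_congr rfl fun i _ => smul_comm _ _ _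
lemma deg0_mat {ι κ : Type} [Fintype ι] [Fintype κ] {a : ι → D} {b : κ → D} {Φ : Matrix κ ι R}
    (h : MHmg a b Φ) (M : GM) : Deg0 (mat a b Φ M) := by
  refine deg0_of_gr fun d m hm => (pw_gr b).2 fun j => ?_
  refine sum_mem fun i _ => ?_
  have := M.smul_mem_gr (h j i) ((pw_gr a).1 hm i)
  rwa [show b j - a i + (d + a i) = d + b j by abel] at this

section inherit
variable {X : Spc} {A B : GM}
lemma DegIn.of_inj {S : Finset ℕ} {f : A.M →ₗ[R] B.M} (hf : Deg0 f) (hi : Function.Injective f)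
    (h : B.DegIn S) : A.DegIn S := fun d hd => eq_bot_iff.2 fun m hm => by
  have := hf.map_gr hm
  rw [h d hd, Submodule.mem_bot] at this
  exact hi (this.trans (map_zero f).symm)
lemma DegIn.of_surj {S : Finset ℕ} {f : A.M →ₗ[R] B.M} (hf : Deg0 f) (hi : Function.Surjective f)
    (h : A.DegIn S) : B.DegIn S := fun d hd => eq_bot_iff.2 fun m hm => by
  obtain ⟨a, rfl⟩ := hi m
  have := A.cp_mem d a
  rw [h d hd, Submodule.mem_bot] at this
  rw [← B.cp_of_mem hm, ← hf.map_cp, this, map_zero]; exact zero_mem _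
lemma On.of_inj {f : A.M →ₗ[R] B.M} (hf : Deg0 f) (hi : Function.Injective f) (h : B.On X) :
    A.On X :=
  ⟨h.deg.of_inj hf hi, fun x hx hn => (h.supp x hx hn).imp fun r hr =>
    ⟨hr.1, fun m => hi (by rw [map_smul, hr.2, map_zero])⟩⟩
lemma On.of_surj {f : A.M →ₗ[R] B.M} (hf : Deg0 f) (hi : Function.Surjective f) (h : A.On X) :
    B.On X :=
  ⟨h.deg.of_surj hf hi, fun x hx hn => (h.supp x hx hn).imp fun r hr =>
    ⟨hr.1, fun m => by obtain ⟨a, rfl⟩ := hi m; rw [← map_smul, hr.2, map_zero]⟩⟩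
lemma Red.of_inj {f : A.M →ₗ[R] B.M} (hf : Deg0 f) (hi : Function.Injective f) (h : B.Red X) :
    A.Red X :=
  ⟨h.deg.of_inj hf hi, fun r hr m => hi (by rw [map_smul, h.ann r hr, map_zero])⟩
lemma Red.of_surj {f : A.M →ₗ[R] B.M} (hf : Deg0 f) (hi : Function.Surjective f) (h : A.Red X) :
    B.Red X :=
  ⟨h.deg.of_surj hf hi, fun r hr m => by
    obtain ⟨a, rfl⟩ := hi m; rw [← map_smul, h.ann r hr, map_zero]⟩
lemma On.sub (h : M.On X) {N : Submodule R M.M} (hN : M.Stab N) : (M.sub N hN).On X :=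
  h.of_inj (deg0_subtype hN) Subtype.val_injective
lemma On.quot (h : M.On X) {N : Submodule R M.M} (hN : M.Stab N) : (M.quot N hN).On X :=
  h.of_surj (deg0_mkQ hN) (Submodule.mkQ_surjective N)
lemma Red.sub (h : M.Red X) {N : Submodule R M.M} (hN : M.Stab N) : (M.sub N hN).Red X :=
  h.of_inj (deg0_subtype hN) Subtype.val_injective
lemma Red.quot (h : M.Red X) {N : Submodule R M.M} (hN : M.Stab N) : (M.quot N hN).Red X :=
  h.of_surj (deg0_mkQ hN) (Submodule.mkQ_surjective N)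
lemma On.of_ses {C : GM} (h : SES A B C) (hA : A.On X) (hC : C.On X) : B.On X := by
  obtain ⟨f, p, hf, hp, -, he, -⟩ := h
  refine ⟨fun d hd => eq_bot_iff.2 fun m hm => ?_, fun x hx hn => ?_⟩
  · have h1 := hp.map_gr hm
    rw [hC.deg d hd, Submodule.mem_bot] at h1
    obtain ⟨a, rfl⟩ := (he m).1 h1
    have := A.cp_mem d a
    rw [hA.deg d hd, Submodule.mem_bot] at this
    rw [← B.cp_of_mem hm, ← hf.map_cp, this, map_zero]; exact zero_mem _
  · obtain ⟨r, hr, h⟩ := hA.supp x hx hn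
    obtain ⟨s, hs, h'⟩ := hC.supp x hx hn
    refine ⟨r * s, by rw [map_mul]; exact mul_ne_zero hr hs, fun m => ?_⟩
    obtain ⟨a, ha⟩ := (he (s • m)).1 (by rw [map_smul, h'])
    rw [mul_smul, ← ha, ← map_smul, h, map_zero]
lemma On.zero : zero.On X :=
  ⟨fun _ _ => eq_bot_iff.2 fun _ _ => rfl, fun _ _ _ => ⟨1, by simp, fun _ => rfl⟩⟩
lemma Red.zero : zero.Red X := ⟨On.zero.deg, fun _ _ _ => rfl⟩
lemma Irr.zero : zero.Irr X := fun _ _ => ⟨1, by simp, fun _ => rfl⟩
lemma On.prod (hA : A.On X) (hB : B.On X) : (prod A B).On X := On.of_ses (ses_prod A B) hA hB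
lemma Red.prod (hA : A.Red X) (hB : B.Red X) : (prod A B).Red X :=
  ⟨(hA.on.prod hB.on).deg, fun r hr m => Prod.ext (hA.ann r hr m.1) (hB.ann r hr m.2)⟩
lemma DegIn.shift {S : Finset ℕ} (h : M.DegIn S) {d : D} (hd : d ∈ DS S) : (M.shift d).DegIn S :=
  fun e he => by
    rw [shift_gr]
    exact h _ fun h' => he (by simpa using sub_mem h' hd)
lemma DegIn.pw {S : Finset ℕ} {ι : Type} [Fintype ι] {deg : ι → D} (hd : ∀ i, deg i ∈ DS S)
    (h : M.DegIn S) : (pw deg M).DegIn S := fun e he => eq_bot_iff.2 fun m hm => funext fun i => by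
  have := (pw_gr deg).1 hm i
  rw [h _ fun h' => he (by simpa using sub_mem h' (hd i)), Submodule.mem_bot] at this
  exact this
lemma On.shift (h : M.On X) {d : D} (hd : d ∈ DS X.B) : (M.shift d).On X :=
  ⟨h.deg.shift hd, h.supp⟩
lemma Red.shift (h : M.Red X) {d : D} (hd : d ∈ DS X.B) : (M.shift d).Red X :=
  ⟨h.deg.shift hd, h.ann⟩
lemma Irr.shift (h : M.Irr X) (d : D) : (M.shift d).Irr X := h
lemma On.pw {ι : Type} [Fintype ι] {deg : ι → D} (hd : ∀ i, deg i ∈ DS X.B) (h : M.On X) :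
    (pw deg M).On X :=
  ⟨h.deg.pw hd, fun x hx hn => (h.supp x hx hn).imp fun _ hr =>
    ⟨hr.1, fun m => funext fun i => hr.2 (m i)⟩⟩
lemma Red.pw {ι : Type} [Fintype ι] {deg : ι → D} (hd : ∀ i, deg i ∈ DS X.B) (h : M.Red X) :
    (pw deg M).Red X :=
  ⟨h.deg.pw hd, fun r hr m => funext fun i => h.ann r hr (m i)⟩
lemma red_O (X : Spc) : (O X).Red X := by
  refine ⟨fun d hd => eq_bot_iff.2 fun q hq => ?_, fun r hr m => ?_⟩
  · obtain ⟨r, hr, rfl⟩ := (Oid_gr _ _).1 hq
    refine Ideal.Quotient.eq_zero_iff_mem.2 fun x hx => ?_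
    rw [← X.restr_eq hx, ← eval_kill, hr.kill_eq_zero hd, map_zero]
  · have : ∀ q : R ⧸ X.I, r • q = 0 := fun q => by
      change Ideal.Quotient.mk X.I r * q = 0
      rw [Ideal.Quotient.eq_zero_iff_mem.2 hr, zero_mul]
    exact this m
lemma On.mono {Z : Spc} (hZ : Z.Sub X) (h : M.On Z) : M.On X :=
  ⟨hZ.1 ▸ h.deg, fun x hx hn => h.supp x (hZ.1 ▸ hx) fun h' => hn (hZ.2 h')⟩
lemma Red.mono {Z : Spc} (hZ : Z.Sub X) (h : M.Red Z) : M.Red X :=
  ⟨hZ.1 ▸ h.deg, fun r hr => h.ann r fun x hx => hr x (hZ.2 hx)⟩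
lemma Irr.mono {Z : Spc} (hZ : Z.Sub X) (h : M.On Z) (hi : M.Irr Z) : M.Irr X :=
  fun x hx => by
    by_cases h' : x ∈ Z.pts
    · exact hi x h'
    · exact h.supp x (hZ.1 ▸ X.rel x hx) h'
lemma degIn_piece (S : Finset ℕ) (M : GM) : (piece S M).DegIn S :=
  fun d hd => eq_bot_iff.2 fun m hm => PieceT.ext (by
    rw [← M.cp_of_mem (piece_gr.1 hm)]
    exact mem_pieceSub.1 (Subtype.property m) d hd)
lemma Red.piece {Y : Spc} (hp : Proj Y X) (h : ∀ r ∈ Y.I, ∀ m : M.M, r • m = 0) :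
    (piece X.B M).Red X :=
  ⟨degIn_piece _ _, fun r hr m => PieceT.ext (h (kill X.B r)
    (fun y hy => by rw [eval_kill]; exact hr _ (hp.map y hy)) (PieceT.val m))⟩
end inherit
end GM

end Crest.Agent.N265
end
end

-- ▼ part N265/G/Basic
section

/-! # Task G3: basic properties of `G X`, dévissage to reduced modules -/

set_option autoImplicit false
noncomputable section
open MvPolynomial

namespace Crest.Agent.N265
open GM
variable {X : Spc}

lemma cl_of_on {M : GM} (h : M.On X) : cl X M = (QuotientAddGroup.mk (FreeAbelianGroup.of ⟨M, h⟩) :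
    _ ⧸ AddSubgroup.closure (GRel X)) := dif_pos h
lemma cl_of_not_on {M : GM} (h : ¬ M.On X) : cl X M = 0 := dif_neg h
lemma GM.SES.on_left {A B C : GM} (h : SES A B C) (hB : B.On X) : A.On X :=
  let ⟨_, _, hf, _, hi, _⟩ := h; hB.of_inj hf hi
lemma GM.SES.on_right {A B C : GM} (h : SES A B C) (hB : B.On X) : C.On X :=
  let ⟨_, _, _, hp, _, _, hs⟩ := h; hB.of_surj hp hs
lemma GM.SES.red_left {A B C : GM} (h : SES A B C) (hB : B.Red X) : A.Red X :=
  let ⟨_, _, hf, _, hi, _⟩ := h; hB.of_inj hf hi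
lemma GM.SES.red_right {A B C : GM} (h : SES A B C) (hB : B.Red X) : C.Red X :=
  let ⟨_, _, _, hp, _, _, hs⟩ := h; hB.of_surj hp hs
lemma GM.Irr.of_inj {A B : GM} {f : A.M →ₗ[R] B.M} (hi : Function.Injective f) (h : B.Irr X) :
    A.Irr X := fun x hx => (h x hx).imp fun r hr =>
  ⟨hr.1, fun m => hi (by rw [map_smul, hr.2, map_zero])⟩
lemma GM.Irr.of_surj {A B : GM} {f : A.M →ₗ[R] B.M} (hi : Function.Surjective f) (h : A.Irr X) :
    B.Irr X := fun x hx => (h x hx).imp fun r hr =>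
  ⟨hr.1, fun m => by obtain ⟨a, rfl⟩ := hi m; rw [← map_smul, hr.2, map_zero]⟩
lemma GM.SES.irr_left {A B C : GM} (h : SES A B C) (hB : B.Irr X) : A.Irr X :=
  let ⟨_, _, _, _, hi, _⟩ := h; hB.of_inj hi
lemma GM.SES.irr_right {A B C : GM} (h : SES A B C) (hB : B.Irr X) : C.Irr X :=
  let ⟨_, _, _, _, _, _, hs⟩ := h; hB.of_surj hs
lemma GM.Irr.of_subsingleton {A : GM} (h : ∀ m : A.M, m = 0) : A.Irr X :=
  fun _ _ => ⟨1, by simp, fun _ => h _⟩
lemma GM.Deg0.comp {A B C : GM} {f : A.M →ₗ[R] B.M} {p : B.M →ₗ[R] C.M} (hp : Deg0 p)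
    (hf : Deg0 f) : Deg0 (p ∘ₗ f) := fun m => (congrArg p (hf m)).trans (hp (f m))
lemma GM.ses_ker_range {A B : GM} {f : A.M →ₗ[R] B.M} (hf : Deg0 f) :
    SES (A.sub _ hf.stab_ker) A (B.sub _ hf.stab_range) :=
  ⟨(LinearMap.ker f).subtype, f.rangeRestrict, fun _ => rfl, fun m => Subtype.ext (hf m),
    Subtype.val_injective, fun a => ⟨fun h => ⟨⟨a, congrArg Subtype.val h⟩, rfl⟩,
      fun ⟨b, h⟩ => h ▸ Subtype.ext b.2⟩, f.surjective_rangeRestrict⟩
/-- lifting a degree zero map along an injection -/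
lemma GM.exists_liftInj {A B Z : GM} {f : A.M →ₗ[R] B.M} (hf : Deg0 f) (hi : Function.Injective f)
    {u : Z.M →ₗ[R] B.M} (hu : Deg0 u) (h : ∀ z, ∃ a, f a = u z) :
    ∃ l : Z.M →ₗ[R] A.M, Deg0 l ∧ ∀ z, f (l z) = u z := by
  choose l hl using h
  refine ⟨⟨⟨l, fun a b => hi ?_⟩, fun r a => hi ?_⟩, fun m => hi ?_, hl⟩
  · simp only [hl, map_add]
  · simp only [hl, map_smul, RingHom.id_apply]
  · exact (hl _).trans ((hu m).trans ((congrArg B.g (hl m).symm).trans (hf _).symm))
/-- descending a degree zero map along a surjection -/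
lemma GM.exists_descSurj {A B Z : GM} {q : A.M →ₗ[R] B.M} (hq : Deg0 q)
    (hs : Function.Surjective q) {u : A.M →ₗ[R] Z.M} (hu : Deg0 u) (h : ∀ a, q a = 0 → u a = 0) :
    ∃ l : B.M →ₗ[R] Z.M, Deg0 l ∧ ∀ a, l (q a) = u a := by
  let l : B.M →ₗ[R] Z.M := (LinearMap.ker q).liftQ u h ∘ₗ
    (q.quotKerEquivOfSurjective hs).symm.toLinearMap
  have hl : ∀ a, l (q a) = u a := fun a => by
    have : (q.quotKerEquivOfSurjective hs).symm (q a) = Submodule.Quotient.mk a :=
      (LinearEquiv.symm_apply_eq _).2 rfl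
    exact congrArg ((LinearMap.ker q).liftQ u h) this
  refine ⟨l, fun m => ?_, hl⟩
  obtain ⟨a, rfl⟩ := hs m
  rw [← hq, hl, hl, hu]

lemma cl_ses {A B C : GM} (h : SES A B C) (hB : B.On X) : cl X B = cl X A + cl X C := by
  rw [cl_of_on hB, cl_of_on (h.on_left hB), cl_of_on (h.on_right hB)]
  have := (QuotientAddGroup.eq_zero_iff _).2 (AddSubgroup.subset_closure (k := GRel X)
    (Or.inl ⟨⟨A, h.on_left hB⟩, ⟨B, hB⟩, ⟨C, h.on_right hB⟩, h, rfl⟩))
  rw [QuotientAddGroup.mk_sub, QuotientAddGroup.mk_sub, sub_sub, sub_eq_zero] at this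
  exact this
lemma cl_irr {A : GM} (h : A.Irr X) : cl X A = 0 := by
  by_cases hA : A.On X
  · rw [cl_of_on hA]
    exact (QuotientAddGroup.eq_zero_iff _).2 (AddSubgroup.subset_closure (Or.inr ⟨⟨A, hA⟩, h, rfl⟩))
  · exact cl_of_not_on hA
lemma cl_zero : cl X GM.zero = 0 := cl_irr Irr.zero
lemma GM.ses_of_bij {A B : GM} {f : A.M →ₗ[R] B.M} (hf : Deg0 f) (h : Function.Bijective f) :
    SES A B GM.zero :=
  ⟨f, 0, hf, fun _ => rfl, h.1, fun b => ⟨fun _ => h.2 b, fun _ => rfl⟩, fun _ => ⟨0, rfl⟩⟩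
lemma cl_bij {A B : GM} {f : A.M →ₗ[R] B.M} (hf : Deg0 f) (h : Function.Bijective f) :
    cl X A = cl X B := by
  by_cases hB : B.On X
  · rw [cl_ses (ses_of_bij hf h) hB, cl_zero, add_zero]
  · rw [cl_of_not_on hB, cl_of_not_on fun hA => hB (hA.of_surj hf h.2)]
lemma cl_iso {A B : GM} (e : A.M ≃ₗ[R] B.M) (he : Deg0 e.toLinearMap) : cl X A = cl X B :=
  cl_bij he e.bijective
lemma cl_prod {A B : GM} (hA : A.On X) (hB : B.On X) : cl X (prod A B) = cl X A + cl X B :=
  cl_ses (ses_prod A B) (hA.prod hB)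
lemma cl_pw {ι : Type} [Fintype ι] {deg : ι → D} (hd : ∀ i, deg i ∈ DS X.B) {M : GM}
    (h : M.On X) : cl X (pw deg M) = ∑ i, cl X (M.shift (deg i)) := by
  revert deg
  refine Fintype.induction_empty_option (P := fun ι _ => ∀ {deg : ι → D}, (∀ i, deg i ∈ DS X.B) →
    cl X (pw deg M) = ∑ i, cl X (M.shift (deg i))) ?_ ?_ ?_ ι
  · intro α β _ e ih deg hd
    let _ := Fintype.ofEquiv β e.symm
    rw [← e.sum_comp, ← ih (deg := fun a => deg (e a)) fun a => hd _]
    exact cl_iso (A := pw deg M) (B := pw (fun a => deg (e a)) M)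
      (LinearEquiv.funCongrLeft R M.M e) fun _ => rfl
  · intro deg _
    rw [Finset.univ_eq_empty, Finset.sum_empty]
    exact cl_irr (Irr.of_subsingleton fun m => funext fun i => i.elim)
  · intro α _ ih deg hd
    classical
    rw [Fintype.sum_option, ← ih (deg := fun a => deg (some a)) fun a => hd _]
    refine cl_ses ⟨LinearMap.single R (fun _ : Option α => M.M) none,
      LinearMap.funLeft R M.M some, fun m => funext fun i => ?_, fun _ => rfl,
      Pi.single_injective (M := fun _ : Option α => M.M) none, fun m => ⟨fun hm => ?_, ?_⟩,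
      LinearMap.funLeft_surjective_of_injective R M.M _ (Option.some_injective α)⟩ (h.pw hd)
    · cases i with
      | none => rfl
      | some a => exact ((congrArg _ (map_zero M.g)).trans (smul_zero _)).symm
    · refine ⟨m none, funext fun i => ?_⟩
      cases i with
      | none => rfl
      | some a => exact (congrFun hm a).symm
    · rintro ⟨a, rfl⟩
      rfl
lemma cl_sq {M : GM} (hM : M.On X) {N P : Submodule R M.M} (hN : M.Stab N) (hP : M.Stab P)
    (h : P ≤ N) : cl X (M.sq N P hN hP) = cl X (M.sub N hN) - cl X (M.sub P hP) := by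
  have hs : (M.sub N hN).Stab (P.comap N.subtype) := fun _ hm => hP _ hm
  rw [cl_ses (ses_sub_quot hs) (hM.sub hN), cl_iso (A := (M.sub N hN).sub _ hs) (B := M.sub P hP)
    (Submodule.comapSubtypeEquivOfLe h) fun _ => rfl, add_sub_cancel_left]
  rfl
/-- Euler characteristic of a three term complex -/
lemma cl_cx {A B C : GM} (hA : A.On X) (hB : B.On X) (hC : C.On X) (f : A.M →ₗ[R] B.M)
    (p : B.M →ₗ[R] C.M) (hf : Deg0 f) (hp : Deg0 p) (h : ∀ a, p (f a) = 0) :
    cl X A - cl X B + cl X C = cl X (A.sub _ hf.stab_ker)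
      - cl X (B.sq _ _ hp.stab_ker hf.stab_range) + cl X (C.quot _ hp.stab_range) := by
  rw [cl_sq hB hp.stab_ker hf.stab_range (by rintro _ ⟨a, rfl⟩; exact h a),
    cl_ses (ses_ker_range hf) hA, cl_ses (ses_ker_range hp) hB,
    cl_ses (ses_sub_quot hp.stab_range) hC]
  abel
lemma cl_locSES {A B C : GM} (h : LocSES X A B C) (hA : A.On X) (hB : B.On X) (hC : C.On X) :
    cl X B = cl X A + cl X C := by
  obtain ⟨f, p, hf, hp, h0, h⟩ := h
  have := cl_cx hA hB hC f p hf hp h0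
  rw [cl_irr (A := A.sub _ hf.stab_ker), cl_irr (A := B.sq _ _ hp.stab_ker hf.stab_range),
    cl_irr (A := C.quot _ hp.stab_range), sub_zero, add_zero, sub_add_eq_add_sub, sub_eq_zero] at this
  · exact this.symm
  · refine fun x hx => (h x hx).imp fun r hr => ⟨hr.1, fun m => ?_⟩
    obtain ⟨c, rfl⟩ := Submodule.Quotient.mk_surjective _ m
    exact (Submodule.Quotient.mk_eq_zero _).2 (hr.2.2.2 c)
  · refine fun x hx => (h x hx).imp fun r hr => ⟨hr.1, fun m => ?_⟩
    obtain ⟨c, rfl⟩ := Submodule.Quotient.mk_surjective _ m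
    exact (Submodule.Quotient.mk_eq_zero _).2 (hr.2.2.1 c.1 c.2)
  · exact fun x hx => (h x hx).imp fun r hr => ⟨hr.1, fun m => Subtype.ext (hr.2.1 m.1 m.2)⟩
/-- a map that is an isomorphism near every point -/
lemma cl_locIso {A B : GM} (f : A.M →ₗ[R] B.M) (hf : Deg0 f) (hA : A.On X) (hB : B.On X)
    (h : ∀ x ∈ X.pts, ∃ r : R, eval x r ≠ 0 ∧ (∀ a, f a = 0 → r • a = 0) ∧ ∀ b, ∃ a, f a = r • b) :
    cl X A = cl X B := by
  rw [cl_locSES (C := GM.zero) ⟨f, 0, hf, fun _ => rfl, fun _ => rfl, fun x hx => (h x hx).imp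
    fun r hr => ⟨hr.1, hr.2.1, fun b _ => hr.2.2 b, fun _ => ⟨0, rfl⟩⟩⟩ hA hB On.zero, cl_zero,
    add_zero]

lemma G.ind {P : G X → Prop} (h0 : P 0) (hcl : ∀ M : GM, M.On X → P (cl X M))
    (hneg : ∀ a, P a → P (-a)) (hadd : ∀ a b, P a → P b → P (a + b)) (a : G X) : P a := by
  induction a using QuotientAddGroup.induction_on with
  | H z =>
    induction z using FreeAbelianGroup.induction_on with
    | zero => exact h0
    | of M => exact cl_of_on M.2 ▸ hcl M.1 M.2
    | neg M h => exact hneg _ h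
    | add a b ha hb => exact hadd _ _ ha hb
lemma G.hom_ext {A : Type*} [AddCommGroup A] {φ ψ : G X →+ A}
    (h : ∀ M : GM, M.On X → φ (cl X M) = ψ (cl X M)) : φ = ψ :=
  AddMonoidHom.ext (G.ind (by simp) h (fun a h => by simp [h]) fun a b h h' => by simp [h, h'])
lemma G.exists_lift {A : Type*} [AddCommGroup A] (φ : GM → A)
    (hs : ∀ A B C : GM, SES A B C → B.On X → φ B = φ A + φ C)
    (hi : ∀ A : GM, A.On X → A.Irr X → φ A = 0) :
    ∃ Φ : G X →+ A, ∀ M : GM, M.On X → Φ (cl X M) = φ M := by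
  refine ⟨QuotientAddGroup.lift (AddSubgroup.closure (GRel X))
    (FreeAbelianGroup.lift fun M : {M : GM // M.On X} => φ M.1)
    ((AddSubgroup.closure_le _).2 ?_), fun M hM => ?_⟩
  · rintro _ (⟨A, B, C, h, rfl⟩ | ⟨A, h, rfl⟩)
    · simp [hs _ _ _ h B.2]
    · simp [hi _ A.2 h]
  · rw [cl_of_on hM]
    exact FreeAbelianGroup.lift_apply_of _ _

/-- a supported module is killed by a power of the ideal up to an irrelevant module -/
lemma GM.On.exists_pow {M : GM} (h : M.On X) : ∃ n : ℕ, ∀ x ∈ X.pts, ∃ r : R, eval x r ≠ 0 ∧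
    ∀ m ∈ X.I ^ n • (⊤ : Submodule R M.M), r • m = 0 := by
  obtain ⟨V, hV⟩ := M.fin
  have hV' : ∀ v ∉ V, (MvPolynomial.X v : R) ∈ Module.annihilator R M.M :=
    fun v hv => Module.mem_annihilator.2 (hV v hv)
  have := noeth_quot _ V hV'
  obtain ⟨n, hn⟩ := IsNoetherianRing.isNilpotent_nilradical (R ⧸ Module.annihilator R M.M)
  refine ⟨n, fun x hx => ?_⟩
  choose! u hu hu' using X.rel x hx
  have hle : Ideal.span {∏ b ∈ X.B, (MvPolynomial.X (u b) : R)} * X.I ≤
      (nilradical _).comap (Ideal.Quotient.mk (Module.annihilator R M.M)) := by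
    refine Ideal.span_singleton_mul_le_iff.2 fun s hs => ?_
    obtain ⟨k, hk⟩ := nss _ V hV' (r := (∏ b ∈ X.B, (MvPolynomial.X (u b) : R)) * s) fun y hy => by
      rw [map_mul, mul_eq_zero, or_iff_not_imp_left, map_prod]
      refine fun h0 => hs y (by_contra fun hn => ?_)
      obtain ⟨r, h1, h2⟩ := h.supp y (fun b hb => ⟨u b, hu b hb, by
        simpa using Finset.prod_ne_zero_iff.1 h0 b hb⟩) hn
      exact h1 (hy r (Module.mem_annihilator.2 h2))
    exact ⟨k, by rw [← map_pow]; exact Ideal.Quotient.eq_zero_iff_mem.2 hk⟩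
  refine ⟨(∏ b ∈ X.B, (MvPolynomial.X (u b) : R)) ^ n, ?_, fun m hm => ?_⟩
  · rw [map_pow, map_prod]
    exact pow_ne_zero _ (Finset.prod_ne_zero_iff.2 fun b hb => by simpa using hu' b hb)
  · refine Submodule.smul_induction_on hm (fun s hs m _ => ?_) fun a b ha hb => by
      rw [smul_add, ha, hb, add_zero]
    have h1 := (Ideal.pow_right_mono hle n).trans (Ideal.le_comap_pow _ n)
    rw [hn, mul_pow] at h1
    have h2 := h1 (Ideal.mul_mem_mul (Ideal.pow_mem_pow (Ideal.mem_span_singleton_self _) n) hs)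
    rw [smul_smul]
    exact Module.mem_annihilator.1 (Ideal.Quotient.eq_zero_iff_mem.1 h2) m
/-- induction along the `I`-adic filtration -/
lemma GM.On.devissage {P : GM → Prop} (hi : ∀ M : GM, M.On X → M.Irr X → P M)
    (hs : ∀ N M Q : GM, SES N M Q → M.On X → Q.Red X → P N → P M) {M : GM} (h : M.On X) : P M := by
  obtain ⟨n, hn⟩ := h.exists_pow
  induction n generalizing M with
  | zero => exact hi M h fun x hx => (hn x hx).imp fun r hr => ⟨hr.1, fun m => hr.2 m (by simp)⟩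
  | succ n ih =>
    have hN : M.Stab (X.I • ⊤) := stab_top.smul fun _ => X.gam_mem_I
    refine hs _ _ _ (ses_sub_quot hN) h ⟨(h.quot hN).deg, fun r hr m => ?_⟩ (ih (h.sub hN)
      fun x hx => (hn x hx).imp fun r hr => ⟨hr.1, fun m hm => Subtype.ext (hr.2 m.1 ?_)⟩)
    · obtain ⟨c, rfl⟩ := Submodule.Quotient.mk_surjective _ m
      exact (Submodule.Quotient.mk_eq_zero _).2 (Submodule.smul_mem_smul hr trivial)
    · rw [pow_succ, Submodule.mul_smul]
      exact Submodule.smul_induction_on (p := fun m : (M.sub _ hN).M =>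
        m.1 ∈ X.I ^ n • X.I • (⊤ : Submodule R M.M)) hm
        (fun s hs m _ => Submodule.smul_mem_smul hs m.2) fun a b ha hb => add_mem ha hb
lemma G.ind_red {P : G X → Prop} (h0 : P 0) (hcl : ∀ M : GM, M.Red X → P (cl X M))
    (hneg : ∀ a, P a → P (-a)) (hadd : ∀ a b, P a → P b → P (a + b)) (a : G X) : P a :=
  G.ind h0 (fun _ h => h.devissage (P := fun M => P (cl X M)) (fun _ _ h => cl_irr h ▸ h0)
    fun _ _ Q h hM hQ hN => cl_ses h hM ▸ hadd _ _ hN (hcl Q hQ)) hneg hadd a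
lemma G.hom_ext_red {A : Type*} [AddCommGroup A] {φ ψ : G X →+ A}
    (h : ∀ M : GM, M.Red X → φ (cl X M) = ψ (cl X M)) : φ = ψ :=
  AddMonoidHom.ext (G.ind_red (by simp) h (fun a h => by simp [h]) fun a b h h' => by simp [h, h'])
/-- the `3 × 3` lemma -/
lemma GM.SES.three {N A B C Q : GM} (h : SES N B Q) (h' : SES A B C) :
    ∃ A' A'' C' C'' : GM, SES A' N C' ∧ SES A'' Q C'' ∧ SES A' A A'' ∧ SES C' C C'' := by
  obtain ⟨i, q, hi, hq, i1, i2, i3⟩ := h
  obtain ⟨f, p, hf, hp, f1, f2, f3⟩ := h'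
  obtain ⟨l, hl, hl'⟩ := exists_liftInj (Z := A.sub _ (hq.comp hf).stab_ker) hi i1
    (hf.comp (deg0_subtype _)) fun z => (i2 _).1 z.2
  obtain ⟨π, hπ, hπ'⟩ := exists_descSurj (Z := C.quot _ (hp.comp hi).stab_range) hq i3
    ((deg0_mkQ _).comp hp) fun b hb => by
      obtain ⟨n, rfl⟩ := (i2 b).1 hb
      exact (Submodule.Quotient.mk_eq_zero _).2 ⟨n, rfl⟩
  refine ⟨_, _, _, _, ⟨l, (p ∘ₗ i).rangeRestrict, hl, fun m => Subtype.ext (hp.comp hi m),
    fun a b hab => Subtype.ext (f1 ((hl' a).symm.trans ((congrArg i hab).trans (hl' b)))),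
    fun n => ⟨fun hn => ?_, ?_⟩, LinearMap.surjective_rangeRestrict _⟩,
    ⟨Submodule.subtype _, π, deg0_subtype (hq.comp hf).stab_range, hπ, Subtype.val_injective,
      fun c => ⟨fun hc => ?_, ?_⟩, fun c => ?_⟩, ses_ker_range (hq.comp hf),
    ses_sub_quot (hp.comp hi).stab_range⟩
  · obtain ⟨a, ha⟩ := (f2 _).1 (congrArg Subtype.val hn)
    exact ⟨⟨a, (congrArg q ha).trans (i2.apply_apply_eq_zero n)⟩, i1 ((hl' _).trans ha)⟩
  · rintro ⟨a, rfl⟩
    exact Subtype.ext ((congrArg p (hl' a)).trans (f2.apply_apply_eq_zero _))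
  · obtain ⟨b, rfl⟩ := i3 c
    obtain ⟨n, hn⟩ := (Submodule.Quotient.mk_eq_zero _).1 ((hπ' b).symm.trans hc)
    obtain ⟨a, ha⟩ := (f2 (b - i n)).1 (by rw [map_sub, sub_eq_zero]; exact hn.symm)
    refine ⟨⟨q b, a, ?_⟩, rfl⟩
    rw [LinearMap.comp_apply, ha, map_sub, i2.apply_apply_eq_zero, sub_zero]
  · rintro ⟨⟨_, a, rfl⟩, rfl⟩
    exact (hπ' _).trans ((congrArg (Submodule.mkQ _) (f2.apply_apply_eq_zero a)).trans (map_zero _))
  · obtain ⟨c, rfl⟩ := Submodule.Quotient.mk_surjective _ c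
    obtain ⟨b, rfl⟩ := f3 c
    exact ⟨q b, hπ' b⟩
/-- the value of an additive function along a filtration with reduced quotients -/
inductive FVal (X : Spc) {A : Type*} [AddCommGroup A] (φ : GM → A) : GM → A → Prop
  | irr {M : GM} : M.Irr X → FVal X φ M 0
  | step {N M Q : GM} {a : A} : SES N M Q → Q.Red X → FVal X φ N a → FVal X φ M (a + φ Q)
/-- dévissage: an additive function on reduced modules extends -/
lemma G.exists_liftRed {A : Type*} [AddCommGroup A] (φ : GM → A)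
    (hs : ∀ A B C : GM, SES A B C → B.Red X → φ B = φ A + φ C)
    (hi : ∀ A : GM, A.Red X → A.Irr X → φ A = 0) :
    ∃ Φ : G X →+ A, ∀ M : GM, M.Red X → Φ (cl X M) = φ M := by
  have hsplit : ∀ B b, FVal X φ B b → ∀ A C, SES A B C →
      ∃ a c, FVal X φ A a ∧ FVal X φ C c ∧ b = a + c := by
    intro B b h
    induction h with
    | irr h => exact fun A C h' => ⟨0, 0, .irr (h'.irr_left h), .irr (h'.irr_right h), by simp⟩
    | step h hQ _ ih =>
      intro A C h'
      obtain ⟨A', A'', C', C'', h1, h2, h3, h4⟩ := h.three h'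
      obtain ⟨a, c, ha, hc, rfl⟩ := ih _ _ h1
      exact ⟨_, _, .step h3 (h2.red_left hQ) ha, .step h4 (h2.red_right hQ) hc, by
        rw [hs _ _ _ h2 hQ]; abel⟩
  have hred : ∀ M a, FVal X φ M a → M.Red X → a = φ M := by
    intro M a h
    induction h with
    | irr h => exact fun h' => (hi _ h' h).symm
    | step h _ _ ih => exact fun h' => by rw [ih (h.red_left h'), hs _ _ _ h h']
  have hirr : ∀ M a, FVal X φ M a → M.Irr X → a = 0 := by
    intro M a h
    induction h with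
    | irr h => exact fun _ => rfl
    | step h hQ _ ih =>
      exact fun h' => by rw [ih (h.irr_left h'), hi _ hQ (h.irr_right h'), add_zero]
  have huniq : ∀ M a, FVal X φ M a → ∀ b, FVal X φ M b → a = b := by
    intro M a h
    induction h with
    | irr h => exact fun b hb => (hirr _ _ hb h).symm
    | step h hQ _ ih =>
      intro b hb
      obtain ⟨a, c, ha, hc, rfl⟩ := hsplit _ _ hb _ _ h
      rw [ih a ha, hred _ _ hc hQ]
  have hex : ∀ M : GM, M.On X → ∃ a, FVal X φ M a := fun M h =>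
    h.devissage (P := fun M => ∃ a, FVal X φ M a) (fun _ _ h => ⟨0, .irr h⟩)
      fun _ _ _ h _ hQ ⟨_, ha⟩ => ⟨_, .step h hQ ha⟩
  choose! ψ hψ using hex
  obtain ⟨Φ, hΦ⟩ := G.exists_lift (X := X) ψ (fun A B C h hB => by
    obtain ⟨a, c, ha, hc, e⟩ := hsplit _ _ (hψ B hB) _ _ h
    rw [e, huniq _ _ ha _ (hψ A (h.on_left hB)), huniq _ _ hc _ (hψ C (h.on_right hB))])
    fun A hA h => hirr _ _ (hψ A hA) h
  exact ⟨Φ, fun M hM => (hΦ M hM.on).trans (hred _ _ (hψ M hM.on) hM)⟩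

lemma exists_sh (X : Spc) (d : D) : ∃ Φ : G X →+ G X, d ∈ DS X.B →
    ∀ M : GM, M.On X → Φ (cl X M) = cl X (M.shift d) := by
  by_cases hd : d ∈ DS X.B
  · exact (G.exists_lift (fun M => cl X (M.shift d)) (fun A B C h hB => cl_ses (h.shift d)
      (hB.shift hd)) fun A _ h => cl_irr (h.shift d)).imp fun _ h _ => h
  · exact ⟨0, fun h => absurd h hd⟩
/-- the twist by `O(d)` -/
def sh (X : Spc) (d : D) : G X →+ G X := (exists_sh X d).choose
lemma sh_cl {d : D} (hd : d ∈ DS X.B) {M : GM} (h : M.On X) :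
    sh X d (cl X M) = cl X (M.shift d) := (exists_sh X d).choose_spec hd M h
lemma cl_shift_zero (M : GM) : cl X (M.shift 0) = cl X M :=
  cl_iso (A := M.shift 0) (B := M) (LinearEquiv.refl R M.M) fun m => by
    change (C (chi (-0)) : R) • M.g m = M.g m
    simp
lemma cl_shift_add (M : GM) (d e : D) : cl X (M.shift (d + e)) = cl X ((M.shift e).shift d) :=
  cl_iso (A := M.shift (d + e)) (B := (M.shift e).shift d) (LinearEquiv.refl R M.M) fun m => by
    change (C (chi (-(d + e))) : R) • M.g m = (C (chi (-d)) : R) • (C (chi (-e)) : R) • M.g m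
    rw [neg_add, chi_add, map_mul, mul_smul]
lemma sh_zero (a : G X) : sh X 0 a = a :=
  DFunLike.congr_fun (G.hom_ext (φ := sh X 0) (ψ := AddMonoidHom.id _) fun M h =>
    (sh_cl (zero_mem _) h).trans (cl_shift_zero M)) a
lemma sh_add {d e : D} (hd : d ∈ DS X.B) (he : e ∈ DS X.B) (a : G X) :
    sh X (d + e) a = sh X d (sh X e a) :=
  DFunLike.congr_fun (G.hom_ext (φ := sh X (d + e)) (ψ := (sh X d).comp (sh X e)) fun M h => by
    rw [AddMonoidHom.comp_apply, sh_cl (add_mem hd he) h, sh_cl he h, sh_cl hd (h.shift he),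
      cl_shift_add]) a

lemma exists_incl (Z X : Spc) : ∃ Φ : G Z →+ G X, Z.Sub X →
    ∀ M : GM, M.On Z → Φ (cl Z M) = cl X M := by
  by_cases hZ : Z.Sub X
  · exact (G.exists_lift (cl X) (fun A B C h hB => cl_ses h (hB.mono hZ))
      fun A hA h => cl_irr (h.mono hZ hA)).imp fun _ h _ => h
  · exact ⟨0, fun h => absurd h hZ⟩
/-- push-forward along a closed embedding -/
def incl (Z X : Spc) : G Z →+ G X := (exists_incl Z X).choose
lemma incl_cl {Z : Spc} (hZ : Z.Sub X) {M : GM} (h : M.On Z) : incl Z X (cl Z M) = cl X M :=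
  (exists_incl Z X).choose_spec hZ M h
lemma incl_sh {Z : Spc} (hZ : Z.Sub X) {d : D} (hd : d ∈ DS X.B) (a : G Z) :
    incl Z X (sh Z d a) = sh X d (incl Z X a) :=
  DFunLike.congr_fun (G.hom_ext (φ := (incl Z X).comp (sh Z d)) (ψ := (sh X d).comp (incl Z X))
    fun M h => by
      have hd' : d ∈ DS Z.B := hZ.1 ▸ hd
      rw [AddMonoidHom.comp_apply, AddMonoidHom.comp_apply, sh_cl hd' h, incl_cl hZ h,
        incl_cl hZ (h.shift hd'), sh_cl hd (h.mono hZ)]) a
lemma incl_incl {Z Y : Spc} (h : Z.Sub Y) (h' : Y.Sub X) (a : G Z) :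
    incl Y X (incl Z Y a) = incl Z X a :=
  DFunLike.congr_fun (G.hom_ext (φ := (incl Y X).comp (incl Z Y)) (ψ := incl Z X) fun M hM => by
    rw [AddMonoidHom.comp_apply, incl_cl h hM, incl_cl h' (hM.mono h),
      incl_cl ⟨h.1.trans h'.1, h.2.trans h'.2⟩ hM]) a
/-- the class of the structure sheaf -/
def one (X : Spc) : G X := cl X (O X)
lemma G.subsingleton_of_empty (h : X.pts = ∅) : Subsingleton (G X) :=
  subsingleton_of_forall_eq 0 (G.ind rfl (fun _ _ => cl_irr fun x hx => by simp [h] at hx)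
    (fun a h => by rw [h, neg_zero]) fun a b h h' => by rw [h, h', add_zero])

end Crest.Agent.N265
end
end

-- ▼ part N265/G/Dev0
section

/-! # Task G4 (part 1): dévissage to structure sheaves of irreducible subspaces -/

set_option autoImplicit false
noncomputable section
open MvPolynomial

namespace Crest.Agent.N265
open GM
variable {X : Spc}


lemma GM.DegIn.dv_mem {M : GM} {B : Finset ℕ} (h : M.DegIn B) {d : D} {m : M.M}
    (hm : m ∈ M.gr d) (h0 : m ≠ 0) : d ∈ DS B := by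
  by_contra hd
  rw [h d hd] at hm
  exact h0 hm

/-- a module over `X` killed by a homogeneous `f` is supported on the zero set of `f` -/
lemma GM.Red.dv_on_cut {M : GM} (hM : M.Red X) {e : D} {f : R} (hf : Hmg e f)
    (h : ∀ m : M.M, f • m = 0) : M.On (X.cut {f} (by rintro r rfl; exact ⟨_, hf⟩)) := by
  refine ⟨hM.deg, fun x hx hn => ?_⟩
  by_cases hX : x ∈ X.pts
  · refine ⟨f, fun h0 => hn ⟨hX, ?_⟩, h⟩
    rintro r rfl; exact h0
  · exact hM.on.supp x hx hX

lemma Spc.dv_cut_ne {e : D} {f : R} (hf : Hmg e f) (hn : f ∉ X.I) :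
    (X.cut {f} (by rintro r rfl; exact ⟨_, hf⟩)).pts ≠ X.pts := fun h =>
  hn fun x hx => by
    rw [← h] at hx
    exact hx.2 f rfl

/-- the short exact sequence of an injective map -/
lemma dv_ses_of_inj {A B : GM} (φ : A.M →ₗ[R] B.M) (h0 : Deg0 φ) (hi : Function.Injective φ) :
    SES A B (B.quot _ h0.stab_range) :=
  ⟨φ, (LinearMap.range φ).mkQ, h0, deg0_mkQ h0.stab_range, hi, LinearMap.exact_map_mkQ_range φ,
    Submodule.mkQ_surjective _⟩

/-- `R ⧸ I → M`, `1 ↦ m` -/
def dvSpan {M : GM} (hM : M.Red X) (m : M.M) : (O X).M →ₗ[R] M.M :=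
  Submodule.liftQ X.I (LinearMap.toSpanSingleton R M.M m) fun r hr => hM.ann r hr m
lemma dvSpan_mk {M : GM} (hM : M.Red X) (m : M.M) (r : R) :
    dvSpan hM m (Ideal.Quotient.mk X.I r) = r • m := rfl

/-- generic rank: on an irreducible space every module is generically free -/
theorem GM.Red.exists_generic (hX : X.Irred) {M : GM} (hM : M.Red X) :
    ∃ (n : ℕ) (deg : Fin n → D) (_ : ∀ i, deg i ∈ DS X.B) (φ : (GM.pw deg (O X)).M →ₗ[R] M.M)
      (e : D) (f : R), Deg0 φ ∧ Function.Injective φ ∧ Hmg e f ∧ f ∉ X.I ∧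
      ∀ m, ∃ a, φ a = f • m := by
  classical
  have hp : X.I.IsPrime := hX
  obtain ⟨N, d, m, hd, h0, hsp⟩ := (stab_top (M := M)).exists_gens
  let Q : Finset (Fin N) → Prop := fun s =>
    ∀ c : Fin N → R, ∑ i ∈ s, c i • m i = 0 → ∀ i ∈ s, c i ∈ X.I
  obtain ⟨s, hs⟩ : ∃ s, Maximal Q s := by
    obtain ⟨s, -, hs⟩ := Finite.exists_le_maximal (p := Q) (a := ∅) (fun c _ i hi => by simp at hi)
    exact ⟨s, hs⟩
  let S : Submodule R M.M := Submodule.span R (m '' s)
  have hS : M.Stab S := stab_span (by rintro _ ⟨i, -, rfl⟩; exact ⟨_, hd i⟩)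
  -- every generator has a multiple in `S`
  have key : ∀ j, ∃ e f, Hmg e f ∧ f ∉ X.I ∧ f • m j ∈ S := by
    intro j
    by_cases hj : j ∈ s
    · refine ⟨0, 1, Hmg.one, fun h => hp.ne_top ((Ideal.eq_top_iff_one _).2 h), ?_⟩
      rw [one_smul]; exact Submodule.subset_span ⟨j, hj, rfl⟩
    have hq : ¬ Q (insert j s) := fun h =>
      hj (hs.2 h (Finset.subset_insert j s) (Finset.mem_insert_self j s))
    simp only [Q, not_forall] at hq
    obtain ⟨c, hc0, i, hi, hci⟩ := hq
    rw [Finset.sum_insert hj] at hc0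
    have hcj : c j ∉ X.I := by
      intro h
      rw [hM.ann _ h, zero_add] at hc0
      rcases Finset.mem_insert.1 hi with rfl | hi
      · exact hci h
      · exact hci (hs.1 c hc0 i hi)
    have hmem : c j • m j ∈ S := by
      rw [eq_neg_of_add_eq_zero_left hc0]
      exact neg_mem (Submodule.sum_mem _ fun i hi =>
        Submodule.smul_mem _ _ (Submodule.subset_span ⟨i, hi, rfl⟩))
    obtain ⟨t, ht, -⟩ := exists_sum_hc (c j)
    obtain ⟨e, he⟩ : ∃ e, hc e (c j) ∉ X.I := by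
      by_contra hall
      push Not at hall
      exact hcj (ht ▸ Ideal.sum_mem _ fun e _ => hall e)
    refine ⟨e, _, hc_hmg e _, he, ?_⟩
    rw [← M.cp_smul' (hd j)]
    exact hS.cp_mem hmem _
  choose e f hf hfn hfm using key
  let σ : Fin s.card ≃ s := s.equivFin.symm
  let φ : (GM.pw (fun i => -d (σ i)) (O X)).M →ₗ[R] M.M :=
    ∑ i, dvSpan hM (m (σ i)) ∘ₗ LinearMap.proj i
  have hφ : ∀ a : Fin s.card → R,
      φ (fun i => Ideal.Quotient.mk X.I (a i)) = ∑ i, a i • m (σ i) := fun a => by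
    exact LinearMap.sum_apply _ _ _
  have hsurj : ∀ a : (GM.pw (fun i => -d (σ i)) (O X)).M, ∃ b : Fin s.card → R,
      a = fun i => Ideal.Quotient.mk X.I (b i) := fun a => by
    choose b hb using fun i => Ideal.Quotient.mk_surjective (I := X.I) (a i)
    exact ⟨b, funext fun i => (hb i).symm⟩
  refine ⟨s.card, fun i => -d (σ i), fun i => neg_mem (hM.deg.dv_mem (hd _) (h0 _)), φ,
    ∑ j, e j, ∏ j, f j, ?_, ?_, Hmg.prod _ fun j _ => hf j, ?_, ?_⟩
  · intro a
    obtain ⟨b, rfl⟩ := hsurj a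
    have : (GM.pw (fun i => -d (σ i)) (O X)).g (fun i => Ideal.Quotient.mk X.I (b i))
        = fun i => Ideal.Quotient.mk X.I (C (chi (d (σ i))) * gam (b i)) := by
      funext i
      change (C (chi (- -d (σ i))) : R) • (O X).g (Ideal.Quotient.mk X.I (b i)) = _
      rw [neg_neg]; rfl
    rw [this, hφ, hφ, map_sum]
    refine Finset.sum_congr rfl fun i _ => ?_
    rw [LinearMap.map_smulₛₗ, mem_gr.1 (hd _), mul_comm, mul_smul]
  · rw [injective_iff_map_eq_zero]
    intro a ha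
    obtain ⟨b, rfl⟩ := hsurj a
    rw [hφ] at ha
    have := hs.1 (fun j => if h : j ∈ s then b (σ.symm ⟨j, h⟩) else 0) (by
      rw [← Finset.sum_coe_sort s, ← ha, ← σ.sum_comp]
      refine Finset.sum_congr rfl fun i _ => ?_
      simp)
    funext i
    have h2 := this (σ i) (σ i).2
    rw [dif_pos (σ i).2, Subtype.coe_eta, Equiv.symm_apply_apply] at h2
    exact Ideal.Quotient.eq_zero_iff_mem.2 h2
  · rw [Ideal.IsPrime.prod_mem_iff]
    rintro ⟨j, -, hj⟩; exact hfn j hj
  · have hSr : S ≤ LinearMap.range φ := by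
      refine Submodule.span_le.2 ?_
      rintro _ ⟨j, hj, rfl⟩
      refine ⟨fun i => Ideal.Quotient.mk X.I ((Pi.single (σ.symm ⟨j, hj⟩) 1 : _ → R) i), ?_⟩
      rw [hφ, Finset.sum_eq_single (σ.symm ⟨j, hj⟩)]
      · simp
      · intro i _ hi; simp [hi]
      · simp
    intro x
    have hx : x ∈ Submodule.span R (Set.range m) := hsp ▸ Submodule.mem_top
    change (∏ j, f j) • x ∈ LinearMap.range φ
    induction hx using Submodule.span_induction with
    | mem _ h =>
      obtain ⟨j, rfl⟩ := h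
      rw [← Finset.prod_erase_mul _ _ (Finset.mem_univ j), mul_smul]
      exact Submodule.smul_mem _ _ (hSr (hfm j))
    | zero => simp
    | add a b _ _ ha hb => rw [smul_add]; exact add_mem ha hb
    | smul r a _ ha => rw [smul_comm]; exact Submodule.smul_mem _ _ ha

lemma dv_incl_self (a : G X) : incl X X a = a := by
  have : incl X X = AddMonoidHom.id _ :=
    G.hom_ext fun M hM => incl_cl (Spc.Sub.refl X) hM
  rw [this]; rfl

/-- the same with noetherian induction built in -/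
theorem G.dev_ind (P : AddSubgroup (G X))
    (h : ∀ Z : Spc, Z.Sub X → Z.Irred →
      (∀ Z' : Spc, Z'.Sub Z → Z'.pts ≠ Z.pts → ∀ a : G Z', incl Z' X a ∈ P) →
      ∀ d ∈ DS X.B, cl X ((O Z).shift d) ∈ P) : P = ⊤ := by
  have main : ∀ Z : Spc, Z.Sub X → ∀ a : G Z, incl Z X a ∈ P := by
    intro Z
    induction Z using Spc.noeth_ind with | _ Z ih => ?_
    intro hZ a
    have ih' : ∀ Z' : Spc, Z'.Sub Z → Z'.pts ≠ Z.pts → ∀ M : GM, M.On Z' → cl X M ∈ P :=
      fun Z' h1 h2 M hM => incl_cl (h1.trans hZ) hM ▸ ih Z' h1 h2 (h1.trans hZ) _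
    induction a using G.ind_red with
    | h0 => simp
    | hneg a ha => rw [map_neg]; exact neg_mem ha
    | hadd a b ha hb => rw [map_add]; exact add_mem ha hb
    | hcl M hM =>
    rw [incl_cl hZ hM.on]
    have hMX : M.On X := hM.on.mono hZ
    by_cases hi : Z.Irred
    · obtain ⟨n, deg, hdeg, φ, e, f, h0, hinj, hf, hfn, hφ⟩ := hM.exists_generic hi
      rw [cl_ses (dv_ses_of_inj φ h0 hinj) hMX]
      refine add_mem ?_ (ih' _ (Z.cut_sub _ _) (Spc.dv_cut_ne hf hfn) _
        ((hM.quot _).dv_on_cut hf fun q => ?_))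
      · rw [cl_pw (fun i => hZ.1 ▸ hdeg i) ((red_O Z).on.mono hZ)]
        exact sum_mem fun i _ => h Z hZ hi
          (fun Z' h1 h2 => ih Z' h1 h2 (h1.trans hZ)) _ (hZ.1 ▸ hdeg i)
      · induction q using Submodule.Quotient.induction_on with | _ m => ?_
        exact (Submodule.Quotient.mk_eq_zero _).2 (hφ m)
    rcases Z.pts.eq_empty_or_nonempty with he | hne
    · rw [cl_irr (Irr.mono hZ hM.on fun x hx => by simp [he] at hx)]; exact zero_mem _
    have := mt (Spc.irred_of hne) hi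
    push Not at this
    obtain ⟨Z₁, Z₂, h₁, h₂, hc, hn₁, hn₂⟩ := this
    have hst : M.Stab (Z₁.I • ⊤) := stab_top.smul fun _ => Z₁.gam_mem_I
    rw [cl_ses (ses_sub_quot hst) hMX]
    refine add_mem (ih' Z₂ h₂ hn₂ _ (Red.on ⟨h₂.1 ▸ (hM.sub hst).deg, fun r hr m => ?_⟩))
      (ih' Z₁ h₁ hn₁ _ (Red.on ⟨h₁.1 ▸ (hM.quot hst).deg, fun r hr q => ?_⟩))
    · obtain ⟨m, hm⟩ := m
      refine Subtype.ext ?_
      change r • m = 0
      refine Submodule.smul_induction_on (p := fun m => r • m = 0) hm (fun s hs n _ => ?_)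
        fun a b ha hb => by rw [smul_add, ha, hb, add_zero]
      rw [← mul_smul]
      refine hM.ann _ (fun x hx => ?_) _
      rcases hc hx with hx | hx
      · rw [map_mul, hs x hx, mul_zero]
      · rw [map_mul, hr x hx, zero_mul]
    · induction q using Submodule.Quotient.induction_on with | _ m => ?_
      exact (Submodule.Quotient.mk_eq_zero _).2 (Submodule.smul_mem_smul hr Submodule.mem_top)
  rw [eq_top_iff]
  intro a _
  rw [← dv_incl_self a]
  exact main X (Spc.Sub.refl X) a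

/-- `G X` is generated by twisted structure sheaves of irreducible closed subspaces -/
theorem G.dev (P : AddSubgroup (G X))
    (h : ∀ Z : Spc, Z.Sub X → Z.Irred → ∀ d ∈ DS X.B, cl X ((O Z).shift d) ∈ P) : P = ⊤ :=
  G.dev_ind P fun Z h1 h2 _ => h Z h1 h2

/-- closed covers -/
theorem G.cover {ι : Type} [Finite ι] (Z : ι → Spc) (hZ : ∀ i, (Z i).Sub X)
    (hc : ∀ x ∈ X.pts, ∃ i, x ∈ (Z i).pts) : ⨆ i, (incl (Z i) X).range = ⊤ := by
  refine G.dev _ fun Y hY hi d hd => ?_
  obtain ⟨i, h⟩ := hi.exists_sub hY Z hZ fun x hx => hc x (hY.2 hx)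
  refine AddSubgroup.mem_iSup_of_mem i ⟨cl (Z i) ((O Y).shift d), incl_cl (hZ i) ?_⟩
  exact ((red_O Y).on.mono h).shift ((hZ i).1 ▸ hd)

/-- restriction of functions -/
def dvRes {Z : Spc} (h : Z.Sub X) : (O X).M →ₗ[R] (O Z).M :=
  Submodule.mapQ X.I Z.I LinearMap.id h.I_le
lemma deg0_dvRes {Z : Spc} (h : Z.Sub X) : Deg0 (dvRes h) := fun m => by
  obtain ⟨r, rfl⟩ := Ideal.Quotient.mk_surjective (I := X.I) m
  rfl

lemma dv_cl_O_two {Z₁ Z₂ : Spc} (h₁ : Z₁.Sub X) (h₂ : Z₂.Sub X) (hc : X.pts ⊆ Z₁.pts ∪ Z₂.pts)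
    (hd : Disjoint Z₁.pts Z₂.pts) : cl X (O X) = cl X (O Z₁) + cl X (O Z₂) := by
  have o₁ := (red_O Z₁).on.mono h₁
  have o₂ := (red_O Z₂).on.mono h₂
  rw [← cl_prod o₁ o₂]
  refine cl_locIso (A := O X) (B := prod (O Z₁) (O Z₂)) ((dvRes h₁).prod (dvRes h₂))
    (fun m => Prod.ext (deg0_dvRes h₁ m) (deg0_dvRes h₂ m)) (red_O X).on (o₁.prod o₂) fun x hx => ?_
  have hinj : ∀ (r : R) (a : (O X).M), ((dvRes h₁).prod (dvRes h₂)) a = 0 → r • a = 0 := by
    intro r a ha
    suffices a = 0 by rw [this, smul_zero]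
    obtain ⟨a, rfl⟩ := Ideal.Quotient.mk_surjective (I := X.I) a
    have e₁ : a ∈ Z₁.I := Ideal.Quotient.eq_zero_iff_mem.1 (congrArg Prod.fst ha)
    have e₂ : a ∈ Z₂.I := Ideal.Quotient.eq_zero_iff_mem.1 (congrArg Prod.snd ha)
    exact Ideal.Quotient.eq_zero_iff_mem.2 fun y hy => (hc hy).elim (e₁ y) (e₂ y)
  by_cases hx₂ : x ∈ Z₂.pts
  · obtain ⟨r, hr, h0⟩ := Spc.exists_notMem (Z := Z₁) (h₁.1 ▸ X.rel x hx)
      fun h => Set.disjoint_left.1 hd h hx₂
    refine ⟨r, h0, hinj r, fun ⟨a, b⟩ => ?_⟩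
    obtain ⟨b, rfl⟩ := Ideal.Quotient.mk_surjective (I := Z₂.I) b
    refine ⟨Ideal.Quotient.mk X.I (r * b), Prod.ext ?_ rfl⟩
    exact (Ideal.Quotient.eq_zero_iff_mem.2 (Ideal.mul_mem_right _ _ hr)).trans
      ((red_O Z₁).ann r hr a).symm
  · obtain ⟨r, hr, h0⟩ := Spc.exists_notMem (Z := Z₂) (h₂.1 ▸ X.rel x hx) hx₂
    refine ⟨r, h0, hinj r, fun ⟨a, b⟩ => ?_⟩
    obtain ⟨a, rfl⟩ := Ideal.Quotient.mk_surjective (I := Z₁.I) a
    refine ⟨Ideal.Quotient.mk X.I (r * a), Prod.ext rfl ?_⟩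
    exact (Ideal.Quotient.eq_zero_iff_mem.2 (Ideal.mul_mem_right _ _ hr)).trans
      ((red_O Z₂).ann r hr b).symm

lemma dv_cl_mono {Z : Spc} (hZ : Z.Sub X) {A : GM} {ι : Type} {s : Finset ι} {B : ι → GM}
    (hA : A.On Z) (hB : ∀ i ∈ s, (B i).On Z) (h : cl Z A = ∑ i ∈ s, cl Z (B i)) :
    cl X A = ∑ i ∈ s, cl X (B i) := by
  rw [← incl_cl hZ hA, h, map_sum]
  exact Finset.sum_congr rfl fun i hi => incl_cl hZ (hB i hi)

lemma Spc.dv_biUnion {ι : Type} (s : Finset ι) (Z : ι → Spc) (hZ : ∀ i ∈ s, (Z i).Sub X) :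
    ∃ U : Spc, U.Sub X ∧ ∀ x, x ∈ U.pts ↔ ∃ i ∈ s, x ∈ (Z i).pts := by
  classical
  induction s using Finset.induction_on with
  | empty => exact ⟨Spc.empty X.B, ⟨rfl, Set.empty_subset _⟩, fun x =>
      ⟨fun h => absurd h (Set.notMem_empty x), by simp⟩⟩
  | insert a s _ ih =>
    obtain ⟨U, hU, h⟩ := ih fun i hi => hZ i (Finset.mem_insert_of_mem hi)
    have ha := hZ a (Finset.mem_insert_self a s)
    refine ⟨X.union (Z a) U ha hU, ⟨rfl, Set.union_subset ha.2 hU.2⟩, fun x => ?_⟩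
    change x ∈ (Z a).pts ∪ U.pts ↔ _
    simp [h]

lemma dv_cl_O_disjoint {ι : Type} (Z : ι → Spc) (hd : ∀ i j, i ≠ j → Disjoint (Z i).pts (Z j).pts)
    (s : Finset ι) : ∀ X : Spc, (∀ i ∈ s, (Z i).Sub X) → (∀ x ∈ X.pts, ∃ i ∈ s, x ∈ (Z i).pts) →
      cl X (O X) = ∑ i ∈ s, cl X (O (Z i)) := by
  classical
  induction s using Finset.induction_on with
  | empty =>
    intro X _ hc
    exact cl_irr fun x hx => by simpa using hc x hx
  | insert a s has ih =>
    intro X hZ hc
    have hs := fun i hi => hZ i (Finset.mem_insert_of_mem (b := a) hi)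
    obtain ⟨U, hU, h⟩ := Spc.dv_biUnion s Z hs
    have ha := hZ a (Finset.mem_insert_self a s)
    have hsU : ∀ i ∈ s, (Z i).Sub U := fun i hi =>
      ⟨(hs i hi).1.trans hU.1.symm, fun x hx => (h x).2 ⟨i, hi, hx⟩⟩
    rw [Finset.sum_insert has, dv_cl_O_two ha hU, dv_cl_mono hU (red_O U).on
      (fun i hi => (red_O _).on.mono (hsU i hi)) (ih U hsU fun x hx => (h x).1 hx)]
    · intro x hx
      obtain ⟨i, hi, hx⟩ := hc x hx
      rcases Finset.mem_insert.1 hi with rfl | hi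
      · exact Or.inl hx
      · exact Or.inr ((h x).2 ⟨i, hi, hx⟩)
    · rw [Set.disjoint_left]
      intro x hx hU
      obtain ⟨i, hi, hx'⟩ := (h x).1 hU
      exact Set.disjoint_left.1 (hd a i fun e => has (e ▸ hi)) hx hx'

/-- the structure sheaf of a disjoint union -/
theorem one_disjoint {ι : Type} [Fintype ι] (Z : ι → Spc) (hZ : ∀ i, (Z i).Sub X)
    (hc : ∀ x ∈ X.pts, ∃ i, x ∈ (Z i).pts)
    (hd : ∀ i j, i ≠ j → Disjoint (Z i).pts (Z j).pts) : one X = ∑ i, incl (Z i) X (one (Z i)) := by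
  unfold one
  rw [dv_cl_O_disjoint Z hd Finset.univ X (fun i _ => hZ i) fun x hx => by simpa using hc x hx]
  exact Finset.sum_congr rfl fun i _ => (incl_cl (hZ i) (red_O _).on).symm

/-- multiplication by a homogeneous element -/
def dvMul (M : GM) (f : R) (d d' : D) : (M.shift d).M →ₗ[R] (M.shift d').M :=
  LinearMap.lsmul R M.M f
lemma deg0_dvMul (M : GM) {e : D} {f : R} (hf : Hmg e f) (d : D) :
    Deg0 (dvMul M f d (d + e)) := fun m => by
  change f • (C (chi (-d)) : R) • M.g m = (C (chi (-(d + e))) : R) • M.g (f • (show M.M from m))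
  rw [LinearMap.map_smulₛₗ, hf, ← mul_smul, ← mul_smul, ← mul_assoc, ← map_mul, ← chi_add,
    mul_comm f]
  congr 4; abel


end Crest.Agent.N265
end
end

-- ▼ part N265/G/Dev
section

/-! # Task G4 (part 2): the point; weight decomposition
(`G.dev`, `G.dev_ind`, `G.cover`, `one_disjoint`, `sh_sub_mem`, `GM.Red.exists_generic` are in `G/Dev0`) -/

set_option autoImplicit false
noncomputable section
open MvPolynomial

namespace Crest.Agent.N265
open GM
variable {X : Spc}

theorem Spc.IsPt.sh_block {P : Spc} {w : ℕ → ℤ} (h : P.IsPt w) {b : ℕ} (hb : b ∈ P.B) (a : G P) :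
    sh P (eB b + w b • eT) a = a := by
  obtain ⟨hw, x, hx, hP⟩ := h
  obtain ⟨v, rfl, hv⟩ := P.rel x hx b hb
  have hdeg : eB v.1 + w v.1 • eT = vdeg v := by rw [vdeg, hw x hx v hv]
  have hd : vdeg v ∈ DS P.B := vdeg_mem hb
  have : sh P (vdeg v) = AddMonoidHom.id _ := G.hom_ext fun M hM => by
    have h0 : cl P (M.shift 0) = cl P M := by rw [← sh_cl (zero_mem _) hM, sh_zero]
    rw [sh_cl hd hM, AddMonoidHom.id_apply, ← h0, ← zero_add (vdeg v)]
    refine (cl_locIso _ (deg0_dvMul M (Hmg.X v) 0) (hM.shift (zero_mem _))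
      (hM.shift (by rwa [zero_add])) fun y hy => ⟨MvPolynomial.X v, ?_, fun _ h => h,
        fun m => ⟨m, rfl⟩⟩).symm
    obtain ⟨c, hc⟩ := hP y hy
    obtain ⟨u, hu, hu0⟩ := P.rel y hy _ hb
    rw [hc, hu] at hu0
    rw [eval_X, hc]
    exact mul_ne_zero (left_ne_zero_of_mul hu0) hv
  rw [hdeg, this]; rfl

lemma Spc.IsPt.dv_eq_of_sub {P Z : Spc} {w : ℕ → ℤ} (h : P.IsPt w) (hZ : Z.Sub P)
    (hn : Z.pts.Nonempty) : Z = P := by
  classical
  obtain ⟨-, x, hx, hP⟩ := h
  obtain ⟨z, hz⟩ := hn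
  refine Spc.ext hZ.1 (hZ.2.antisymm fun y hy => ?_)
  have key : ∀ y ∈ P.pts, ∃ c : ℕ → ℂˣ, ∀ v, y v = c v.1 * x v := fun y hy => by
    obtain ⟨c, hc⟩ := hP y hy
    refine ⟨fun b => if h : c b = 0 then 1 else Units.mk0 _ h, fun v => ?_⟩
    by_cases h0 : c v.1 = 0
    · by_cases hv : v.1 ∈ P.B
      · obtain ⟨u, hu, hu0⟩ := P.rel y hy _ hv
        rw [hc, hu, h0, zero_mul] at hu0
        exact absurd rfl hu0
      · have : x v = 0 := by rw [← P.restr_eq hx]; simp [restr, hv]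
        rw [hc, this, mul_zero, mul_zero]
    · simp [h0, hc]
  obtain ⟨a, ha⟩ := key y hy
  obtain ⟨b, hb⟩ := key z (hZ.2 hz)
  obtain ⟨c, hc⟩ := exists_tor fun i => i.elim 1 fun n => a n * (b n)⁻¹
  convert Z.tpt_mem c hz using 1
  funext v
  have : c (Multiplicative.ofAdd (vdeg v)) = a v.1 * (b v.1)⁻¹ := by
    rw [vdeg, ofAdd_add, map_mul, ofAdd_zsmul, map_zpow, eB, eT, hc, hc]; simp
  rw [tpt, this, ha, hb]; simp [mul_assoc]

lemma dv_sh_zsmul {d : D} (hd : d ∈ DS X.B) (h : ∀ a, sh X d a = a) (n : ℤ) (a : G X) :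
    sh X (n • d) a = a := by
  induction n using Int.induction_on with
  | zero => rw [zero_smul, sh_zero]
  | succ n ih => rw [add_smul, one_smul, add_comm, sh_add hd (zsmul_mem hd _), h, ih]
  | pred n ih =>
    rw [← h (sh X _ a), ← sh_add hd (zsmul_mem hd _), sub_smul, one_smul, add_sub_cancel, ih]

lemma Spc.IsPt.dv_exists_sh {P : Spc} {w : ℕ → ℤ} (h : P.IsPt w) {d : D} (hd : d ∈ DS P.B) :
    ∃ k : ℤ, ∀ a, sh P d a = sh P (k • eT) a := by
  have key : ∀ s : Finset ℕ, s ⊆ P.B → ∀ a,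
      sh P (∑ b ∈ s, d (some b) • (eB b + w b • eT)) a = a := by
    intro s
    induction s using Finset.induction_on with
    | empty => intro _ a; rw [Finset.sum_empty, sh_zero]
    | insert b s hb ih =>
      intro hs a
      have hm : ∀ b ∈ P.B, eB b + w b • eT ∈ DS P.B := fun b hb =>
        add_mem (eB_mem hb) (zsmul_mem (eT_mem _) _)
      have hb' := hs (Finset.mem_insert_self b s)
      have hs' := (Finset.subset_insert b s).trans hs
      rw [Finset.sum_insert hb, sh_add (zsmul_mem (hm b hb') _)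
        (sum_mem fun c hc => zsmul_mem (hm c (hs' hc)) _), ih hs',
        dv_sh_zsmul (hm b hb') (h.sh_block hb')]
  refine ⟨d none - ∑ b ∈ P.B, d (some b) * w b, fun a => ?_⟩
  have e : d = (d none - ∑ b ∈ P.B, d (some b) * w b) • eT
      + ∑ b ∈ P.B, d (some b) • (eB b + w b • eT) := by
    ext i
    cases i with
    | none => simp [eB, eT]
    | some c =>
      simp only [eB, eT, Finsupp.finsetSum_apply, Finsupp.add_apply, Finsupp.smul_apply,
        Finsupp.single_apply, Option.some.injEq, reduceCtorEq, if_false, add_zero,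
        zero_add, smul_eq_mul, mul_ite, mul_one, mul_zero, Finset.sum_ite_eq']
      split_ifs with hc
      · rfl
      · exact hd c hc
  conv_lhs => rw [e]
  rw [sh_add (zsmul_mem (eT_mem _) _) (sum_mem fun b hb =>
    zsmul_mem (add_mem (eB_mem hb) (zsmul_mem (eT_mem _) _)) _), key _ subset_rfl]

/-- on a point every class is a combination of `t^k [O]` -/
theorem Spc.IsPt.span {P : Spc} {w : ℕ → ℤ} (h : P.IsPt w) :
    AddSubgroup.closure {a | ∃ k : ℤ, a = sh P (k • eT) (one P)} = ⊤ := by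
  refine G.dev _ fun Z hZ hi d hd => ?_
  obtain rfl := h.dv_eq_of_sub hZ hi.nonempty
  obtain ⟨k, hk⟩ := h.dv_exists_sh hd
  exact AddSubgroup.subset_closure ⟨k, by rw [← hk, one, sh_cl hd (red_O _).on]⟩

/-! ### the point -/

lemma Spc.dv_pt0_isPt : Spc.pt0.IsPt 0 := by
  refine ⟨fun x hx v hv => ?_, 0, by simp [Spc.pt0_pts], fun y hy => ⟨0, fun v => ?_⟩⟩
  · rw [Spc.pt0_pts] at hx; simp [Set.mem_singleton_iff.1 hx] at hv
  · rw [Spc.pt0_pts] at hy; simp [Set.mem_singleton_iff.1 hy]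

lemma GM.DegIn.dv_smul {M : GM} (h : M.DegIn ∅) (r : R) (m : M.M) :
    r • m = (eval 0 r : ℂ) • m := by
  induction r using MvPolynomial.induction_on generalizing m with
  | C c => rw [eval_C]; rfl
  | add p q hp hq => rw [add_smul, map_add, add_smul, hp, hq]
  | mul_X p v hp => rw [mul_smul, h.X_smul (by simp), smul_zero]; simp

lemma GM.DegIn.dv_finite {M : GM} (h : M.DegIn ∅) : Module.Finite ℂ M.M := by
  obtain ⟨s, hs⟩ := (IsNoetherian.noetherian (⊤ : Submodule R M.M))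
  refine ⟨s, eq_top_iff.2 fun m _ => ?_⟩
  have hm : m ∈ Submodule.span R (s : Set M.M) := hs ▸ Submodule.mem_top
  induction hm using Submodule.span_induction with
  | mem _ h => exact Submodule.subset_span h
  | zero => exact zero_mem _
  | add a b _ _ ha hb => exact add_mem (ha trivial) (hb trivial)
  | smul r a _ ha => rw [h.dv_smul]; exact Submodule.smul_mem _ _ (ha trivial)

/-- a degree zero map on homogeneous pieces -/
def GM.Deg0.dvGr {A B : GM} {f : A.M →ₗ[R] B.M} (hf : Deg0 f) (d : D) : A.gr d →ₗ[ℂ] B.gr d :=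
  (f.restrictScalars ℂ).restrict fun _ hm => hf.map_gr hm

lemma GM.SES.dv_finrank_gr {A B C : GM} (h : SES A B C) [Module.Finite ℂ B.M] (d : D) :
    Module.finrank ℂ (B.gr d) = Module.finrank ℂ (A.gr d) + Module.finrank ℂ (C.gr d) := by
  obtain ⟨f, p, hf, hp, hi, he, hs⟩ := h
  have h1 : Function.Injective (hf.dvGr d) := fun a b hab =>
    Subtype.ext (hi (congrArg Subtype.val hab))
  have h2 : LinearMap.range (hp.dvGr d) = ⊤ := eq_top_iff.2 fun c _ => by
    obtain ⟨b, hb⟩ := hs c.1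
    refine ⟨⟨B.cp d b, B.cp_mem d b⟩, Subtype.ext ?_⟩
    change p (B.cp d b) = c.1
    rw [hp.map_cp, hb, C.cp_of_mem c.2]
  have h3 : LinearMap.ker (hp.dvGr d) = LinearMap.range (hf.dvGr d) := by
    ext b
    constructor
    · intro hb
      obtain ⟨a, ha⟩ := (he b.1).1 (congrArg Subtype.val hb)
      refine ⟨⟨A.cp d a, A.cp_mem d a⟩, Subtype.ext ?_⟩
      change f (A.cp d a) = b.1
      rw [hf.map_cp, ha, B.cp_of_mem b.2]
    · rintro ⟨a, rfl⟩
      exact Subtype.ext ((he _).2 ⟨a.1, rfl⟩)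
  rw [← (hp.dvGr d).finrank_range_add_finrank_ker, h2, h3, finrank_top,
    LinearMap.finrank_range_of_inj h1, add_comm]

lemma GM.DegIn.dv_finite_supp {M : GM} (h : M.DegIn ∅) :
    (Function.support fun k : ℤ => (Module.finrank ℂ (M.gr (-(k • eT))) : ℤ)).Finite := by
  have := h.dv_finite
  have hf := WellFoundedGT.finite_ne_bot_of_iSupIndep M.gr_indep
  refine (hf.preimage (f := fun k : ℤ => -(k • eT)) fun a _ b _ hab => ?_).subset fun k hk h0 => ?_
  · simpa [eT] using congrArg (fun d : D => d none) hab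
  · exact hk (by beta_reduce at h0 ⊢; rw [h0]; simp)

lemma dv_O_pt0_gr (d : D) : Module.finrank ℂ ((O Spc.pt0).gr d) = if d = 0 then 1 else 0 := by
  have hD : (O Spc.pt0).DegIn ∅ := (red_O Spc.pt0).deg
  let u : (O Spc.pt0).M := Ideal.Quotient.mk _ 1
  have hu : u ∈ (O Spc.pt0).gr 0 := (Oid_gr _ _).2 ⟨1, Hmg.one, rfl⟩
  have hu0 : u ≠ 0 := fun h => by
    have := Ideal.Quotient.eq_zero_iff_mem.1 h 0 (by simp [Spc.pt0_pts])
    simp at this
  have hall : ∀ m : (O Spc.pt0).M, m ∈ Submodule.span ℂ {u} := fun m => by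
    obtain ⟨r, rfl⟩ := Ideal.Quotient.mk_surjective (I := Spc.pt0.I) m
    refine Submodule.mem_span_singleton.2 ⟨eval 0 r, ?_⟩
    rw [← hD.dv_smul]
    exact congrArg (Ideal.Quotient.mk _) (mul_one r)
  have hle : Submodule.span ℂ {u} ≤ (O Spc.pt0).gr 0 := (Submodule.span_singleton_le_iff_mem _ _).2 hu
  split_ifs with hd
  · rw [hd, ← hle.antisymm fun m _ => hall m, finrank_span_singleton hu0]
  · have : (O Spc.pt0).gr d = ⊥ := eq_bot_iff.2 fun m hm => by
      rw [Submodule.mem_bot, ← GM.cp_of_mem _ hm]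
      exact GM.cp_of_mem_ne _ (hle (hall m)) hd
    rw [this, finrank_bot]

/-- the character of a finite-dimensional `T`-representation -/
theorem exists_chiT : ∃ Φ : G Spc.pt0 ≃+ LaurentPolynomial ℤ,
    ∀ k : ℤ, Φ (sh _ (k • eT) (one _)) = LaurentPolynomial.T k := by
  classical
  let φ : GM → (ℤ →₀ ℤ) := fun M =>
    if h : M.DegIn ∅ then Finsupp.ofSupportFinite _ h.dv_finite_supp else 0
  have hφ : ∀ M : GM, M.DegIn ∅ → ∀ k, φ M k = Module.finrank ℂ (M.gr (-(k • eT))) := by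
    intro M h k; simp only [φ, dif_pos h]; rfl
  obtain ⟨Φ, hΦ⟩ := G.exists_lift (X := Spc.pt0) φ (fun A B C h hB => by
    have hB' : B.DegIn ∅ := hB.deg
    have := hB'.dv_finite
    have ⟨f, p, hf, hp, hi, _, hs⟩ := h
    ext k
    rw [Finsupp.add_apply, hφ B hB', hφ A (hB'.of_inj hf hi), hφ C (hB'.of_surj hp hs),
      h.dv_finrank_gr, Nat.cast_add]) (fun A hA hi => by
    have hA' : A.DegIn ∅ := hA.deg
    obtain ⟨r, hr, h0⟩ := hi 0 (by simp [Spc.pt0_pts])
    ext k
    have : A.gr (-(k • eT)) = ⊥ := eq_bot_iff.2 fun m _ => by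
      have := h0 m
      rw [hA'.dv_smul] at this
      exact (smul_eq_zero.1 this).resolve_left hr
    rw [hφ A hA', this]; simp)
  have h1 : ∀ k : ℤ, Φ (sh _ (k • eT) (one _)) = Finsupp.single k 1 := fun k => by
    have hk : k • eT ∈ DS Spc.pt0.B := zsmul_mem (eT_mem _) _
    have ho := (red_O Spc.pt0).on.shift hk
    rw [one, sh_cl hk (red_O _).on, hΦ _ ho]
    ext j
    rw [hφ _ ho.deg, shift_gr]
    erw [dv_O_pt0_gr]
    rw [Finsupp.single_apply]
    have : -(j • eT) + k • eT = 0 ↔ k = j := by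
      rw [neg_add_eq_zero]
      exact ⟨fun h => by simpa [eT] using (congrArg (fun d : D => d none) h).symm,
        fun h => by rw [h]⟩
    simp [this]
  let Ψ : (ℤ →₀ ℤ) →+ G Spc.pt0 :=
    Finsupp.liftAddHom fun k => zmultiplesHom _ (sh _ (k • eT) (one _))
  have h2 : ∀ k : ℤ, Ψ (Finsupp.single k 1) = sh _ (k • eT) (one _) := fun k => by simp [Ψ]
  have h3 : Φ.comp Ψ = AddMonoidHom.id _ := by
    ext k : 2
    simp [h1, h2]
  have h4 : ∀ a, Ψ (Φ a) = a := fun a => by
    have ha : a ∈ AddSubgroup.closure {a | ∃ k : ℤ, a = sh _ (k • eT) (one Spc.pt0)} :=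
      Spc.dv_pt0_isPt.span ▸ AddSubgroup.mem_top a
    induction ha using AddSubgroup.closure_induction with
    | mem _ h => obtain ⟨k, rfl⟩ := h; rw [h1, h2]
    | zero => simp
    | add a b _ _ ha hb => rw [map_add, map_add, ha, hb]
    | neg a _ ha => rw [map_neg, map_neg, ha]
  refine ⟨(AddMonoidHom.toAddEquiv Φ Ψ (AddMonoidHom.ext h4) h3).trans
    AddMonoidAlgebra.coeffAddEquiv.symm, fun k => ?_⟩
  change AddMonoidAlgebra.ofCoeff (Φ _) = _
  rw [h1]; rfl
/-- `G(pt) = ℤ[t^±]`, `t = O(eT)` -/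
def chiT : G Spc.pt0 ≃+ LaurentPolynomial ℤ := exists_chiT.choose
lemma chiT_one (k : ℤ) : chiT (sh _ (k • eT) (one _)) = LaurentPolynomial.T k :=
  exists_chiT.choose_spec k

/-! ### weight decomposition -/

/-- the submodule generated by the elements of `T`-weight `k` -/
def GM.wtSub (M : GM) (k : ℤ) : Submodule R M.M :=
  Submodule.span R {m | ∃ d : D, d none = k ∧ m ∈ M.gr d}
lemma GM.stab_wtSub (M : GM) (k : ℤ) : M.Stab (M.wtSub k) :=
  stab_span fun _ ⟨d, _, h⟩ => ⟨d, h⟩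
lemma GM.mem_wtSub_of {M : GM} {k : ℤ} {m : M.M} (h : ∀ d : D, d none ≠ k → M.cp d m = 0) :
    m ∈ M.wtSub k := by
  obtain ⟨s, hs, -⟩ := M.exists_sum_cp m
  rw [← hs]
  refine sum_mem fun d _ => ?_
  by_cases hd : d none = k
  · exact Submodule.subset_span ⟨d, hd, M.cp_mem d m⟩
  · rw [h d hd]; exact zero_mem _

/-- on a `T`-trivial space the weights of the components are preserved by `R` -/
lemma GM.Red.cp_span (hX : X.TTriv 0) {M : GM} (hM : M.Red X) (S : Set ℤ) {m : M.M}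
    (hm : m ∈ Submodule.span R {m | ∃ d : D, d none ∈ S ∧ m ∈ M.gr d}) :
    ∀ d : D, d none ∉ S → M.cp d m = 0 := by
  induction hm using Submodule.span_induction with
  | mem m h =>
    obtain ⟨e, he, h⟩ := h
    exact fun d hd => M.cp_of_mem_ne h fun h' => hd (h' ▸ he)
  | zero => simp
  | add a b _ _ ha hb => intro d hd; rw [map_add, ha d hd, hb d hd, add_zero]
  | smul r a h ha =>
    clear h
    induction r using MvPolynomial.induction_on generalizing a with
    | C c => intro d hd; rw [← c_smul, map_smul, ha d hd, smul_zero]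
    | add p q hp hq => intro d hd; rw [add_smul, map_add, hp a ha d hd, hq a ha d hd, add_zero]
    | mul_X p v hp =>
      rw [mul_smul]
      refine hp _ fun d hd => ?_
      by_cases hv : v.2.2 = 0
      · rw [← add_sub_cancel (vdeg v) d, M.cp_smul (Hmg.X v), ha, smul_zero]
        simpa [vdeg, eB, hv] using hd
      · rw [hM.ann, map_zero]
        intro x hx
        by_contra h0
        exact hv (hX x hx v (by simpa using h0))

/-- the weight `k` part, moved to weight zero -/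
def GM.wtPart (M : GM) (k : ℤ) : GM := (M.sub _ (M.stab_wtSub k)).shift (k • eT)

lemma GM.SES.wtPart (hX : X.TTriv 0) {A B C : GM} (h : SES A B C) (hB : B.Red X) (k : ℤ) :
    SES (A.wtPart k) (B.wtPart k) (C.wtPart k) := by
  obtain ⟨f, p, hf, hp, hi, he, hs⟩ := h
  have hmap : ∀ {M N : GM} {φ : M.M →ₗ[R] N.M}, Deg0 φ → ∀ m ∈ M.wtSub k, φ m ∈ N.wtSub k := by
    intro M N φ hφ
    change M.wtSub k ≤ (N.wtSub k).comap φ
    refine Submodule.span_le.2 ?_
    rintro m ⟨d, hd, hm⟩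
    exact Submodule.subset_span ⟨d, hd, hφ.map_gr hm⟩
  refine SES.shift (A := A.sub _ (A.stab_wtSub k)) (B := B.sub _ (B.stab_wtSub k))
    (C := C.sub _ (C.stab_wtSub k))
    ⟨f.restrict (hmap hf), p.restrict (hmap hp), fun m => Subtype.ext (hf m.1),
    fun m => Subtype.ext (hp m.1), fun a b hab => Subtype.ext (hi (congrArg Subtype.val hab)),
    fun b => ⟨fun hb => ?_, ?_⟩, fun c => ?_⟩ _
  · obtain ⟨a, ha⟩ := (he b.1).1 (congrArg Subtype.val hb)
    refine ⟨⟨a, mem_wtSub_of fun d hd => hi ?_⟩, Subtype.ext ha⟩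
    rw [hf.map_cp, ha, map_zero]
    exact hB.cp_span hX {k} b.2 d hd
  · rintro ⟨a, rfl⟩
    exact Subtype.ext ((he _).2 ⟨a.1, rfl⟩)
  · have : C.wtSub k ≤ (B.wtSub k).map p := by
      refine Submodule.span_le.2 ?_
      rintro m ⟨d, hd, hm⟩
      obtain ⟨b, rfl⟩ := hs m
      exact ⟨B.cp d b, Submodule.subset_span ⟨d, hd, B.cp_mem d b⟩, by
        rw [hp.map_cp, C.cp_of_mem hm]⟩
    obtain ⟨b, hb, hc⟩ := this c.2
    exact ⟨⟨b, hb⟩, Subtype.ext hc⟩

lemma cl_wtPart_eq_zero {M : GM} {k : ℤ} (h : ∀ d : D, d none = k → M.gr d = ⊥) :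
    cl X (M.wtPart k) = 0 := by
  refine cl_irr fun x _ => ⟨1, by simp, fun m => ?_⟩
  have : M.wtSub k ≤ ⊥ := Submodule.span_le.2 (by
    rintro m ⟨d, hd, hm⟩
    rw [h d hd] at hm
    exact hm)
  rw [one_smul]
  exact Subtype.ext (this m.2)

lemma GM.wtSub_shift (M : GM) (k j : ℤ) : (M.shift (j • eT)).wtSub k = M.wtSub (k + j) := by
  refine congrArg (Submodule.span R) (Set.ext fun m => ⟨?_, ?_⟩)
  · rintro ⟨d, hd, hm⟩
    rw [shift_gr] at hm
    exact ⟨_, by simp [eT, hd], hm⟩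
  · rintro ⟨d, hd, hm⟩
    refine ⟨d - j • eT, by simp [eT, hd], ?_⟩
    rw [shift_gr, sub_add_cancel]
    exact hm

lemma cl_wtPart_shift (M : GM) (k j : ℤ) :
    cl X ((M.shift (j • eT)).wtPart k) = cl X (M.wtPart (k + j)) := by
  refine cl_iso (A := (M.shift (j • eT)).wtPart k) (B := M.wtPart (k + j))
    (LinearEquiv.ofEq _ _ (M.wtSub_shift k j)) fun m => Subtype.ext ?_
  change (C (chi (-(k • eT))) : R) • (C (chi (-(j • eT))) : R) • M.g m.1
    = (C (chi (-((k + j) • eT))) : R) • M.g m.1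
  rw [← mul_smul, ← map_mul, ← chi_add, add_smul, neg_add]

lemma cl_wtPart_zero {M : GM} (h : ∀ d : D, d none ≠ 0 → M.gr d = ⊥) :
    cl X (M.wtPart 0) = cl X M := by
  have : M.wtSub 0 = ⊤ := eq_top_iff.2 fun m _ => mem_wtSub_of fun d hd => by
    have := M.cp_mem d m
    rwa [h d hd] at this
  refine cl_iso (A := M.wtPart 0) (B := M) (LinearEquiv.ofTop _ this) fun m => ?_
  change (C (chi (-((0 : ℤ) • eT))) : R) • M.g m.1 = M.g m.1
  simp

/-- induction along the `I`-adic filtration -/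
lemma GM.On.dv_ind_red {Q : GM → Prop} {P : G X → Prop}
    (hsub : ∀ (M : GM) N (hN : M.Stab N), Q M → Q (M.sub N hN) ∧ Q (M.quot N hN))
    (h0 : P 0) (hadd : ∀ a b, P a → P b → P (a + b))
    (hred : ∀ M : GM, M.Red X → Q M → P (cl X M)) {M : GM} (hM : M.On X) (hQ : Q M) :
    P (cl X M) := by
  obtain ⟨n, hn⟩ := hM.exists_pow
  induction n generalizing M with
  | zero =>
    rw [cl_irr fun x hx => (hn x hx).imp fun r hr => ⟨hr.1, fun m => hr.2 m (by simp)⟩]
    exact h0
  | succ n ih =>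
    have hst : M.Stab (X.I • ⊤) := stab_top.smul fun _ => X.gam_mem_I
    rw [cl_ses (ses_sub_quot hst) hM]
    refine hadd _ _ (ih (hM.sub hst) (hsub M _ hst hQ).1 fun x hx => (hn x hx).imp fun r hr =>
      ⟨hr.1, fun m hm => Subtype.ext (hr.2 m.1 ?_)⟩)
      (hred _ ⟨(hM.quot hst).deg, fun r hr q => ?_⟩ (hsub M _ hst hQ).2)
    · induction q using Submodule.Quotient.induction_on with | _ m => ?_
      exact (Submodule.Quotient.mk_eq_zero _).2 (Submodule.smul_mem_smul hr Submodule.mem_top)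
    · rw [pow_succ, Submodule.mul_smul]
      exact (Submodule.mem_smul_top_iff _ _ m).1 hm

/-- On a space whose variables all have weight zero an additive function of modules splits into
its `T`-weight components: `Φ k (t^j a) = Φ (k + j) a`, and only finitely many are non-zero. -/
theorem G.exists_wt (hX : X.TTriv 0) : ∃ π : ℤ → G X →+ G X,
    (∀ k j a, π k (sh X (j • eT) a) = π (k + j) a) ∧ (∀ a, {k | π k a ≠ 0}.Finite) ∧
    (∀ M : GM, M.On X → (∀ d : D, d none ≠ 0 → M.gr d = ⊥) →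
      π 0 (cl X M) = cl X M ∧ ∀ k, k ≠ 0 → π k (cl X M) = 0) := by
  have hk : ∀ k : ℤ, k • eT ∈ DS X.B := fun k => zsmul_mem (eT_mem _) _
  choose π hπ using fun k : ℤ => G.exists_liftRed (X := X) (fun M => cl X (M.wtPart k))
    (fun A B C h hB => cl_ses (h.wtPart hX hB k) ((hB.sub _).shift (hk k)).on)
    (fun A _ hi => cl_irr fun x hx => (hi x hx).imp fun r hr =>
      ⟨hr.1, fun m => Subtype.ext (hr.2 m.1)⟩)
  refine ⟨π, fun k j a => ?_, fun a => ?_, fun M hM hw => ?_⟩
  · have : (π k).comp (sh X (j • eT)) = π (k + j) := G.hom_ext_red fun M hM => by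
      rw [AddMonoidHom.comp_apply, sh_cl (hk j) hM.on, hπ _ _ (hM.shift (hk j)), hπ _ _ hM,
        cl_wtPart_shift]
    exact DFunLike.congr_fun this a
  · induction a using G.ind_red with
    | h0 => simp
    | hneg a ha => simpa using ha
    | hadd a b ha hb =>
      refine (ha.union hb).subset fun k hk => ?_
      by_contra h
      simp only [Set.mem_union, Set.mem_ofPred_eq, not_or, not_not] at h
      exact hk (by rw [map_add, h.1, h.2, add_zero])
    | hcl M hM =>
      obtain ⟨N, d, m, hd, -, hsp⟩ := (stab_top (M := M)).exists_gens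
      refine (Set.finite_range fun i => d i none).subset fun k hk => ?_
      by_contra h
      refine hk ?_
      rw [hπ _ _ hM]
      refine cl_wtPart_eq_zero fun e he => eq_bot_iff.2 fun x hx => ?_
      rw [Submodule.mem_bot, ← M.cp_of_mem hx]
      refine hM.cp_span hX (Set.range fun i => d i none) (Submodule.span_mono ?_
        (hsp ▸ Submodule.mem_top : x ∈ Submodule.span R (Set.range m))) e (he ▸ h)
      rintro _ ⟨i, rfl⟩
      exact ⟨d i, ⟨i, rfl⟩, hd i⟩
  · refine GM.On.dv_ind_red (Q := fun M => ∀ d : D, d none ≠ 0 → M.gr d = ⊥)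
      (P := fun a => π 0 a = a ∧ ∀ k, k ≠ 0 → π k a = 0) ?_ (by simp) ?_ ?_ hM hw
    · intro M N hN h
      refine ⟨fun d hd => eq_bot_iff.2 fun m hm => ?_, fun d hd => eq_bot_iff.2 fun q hq => ?_⟩
      · have := (sub_gr hN).1 hm
        rw [h d hd] at this
        exact Subtype.ext this
      · obtain ⟨m, hm, rfl⟩ := (quot_gr hN).1 hq
        rw [h d hd] at hm
        rw [(Submodule.mem_bot _).1 hm]
        exact zero_mem _
    · rintro a b ⟨ha, ha'⟩ ⟨hb, hb'⟩
      exact ⟨by rw [map_add, ha, hb], fun k hk => by rw [map_add, ha' k hk, hb' k hk, add_zero]⟩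
    · intro M hM h
      exact ⟨by rw [hπ _ _ hM, cl_wtPart_zero h], fun k hk => by
        rw [hπ _ _ hM, cl_wtPart_eq_zero fun d hd => h d (hd ▸ hk)]⟩

end Crest.Agent.N265
end
end

-- ▼ part N265/G/PushA
section

/-! # Push-forward, part A: the group ring of degrees and limits of recurrent functions (helper39) -/

set_option autoImplicit false
noncomputable section

namespace Crest.Agent.N265.PA

/-- the group ring of the degrees -/
abbrev Lm : Type := AddMonoidAlgebra ℤ D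
/-- the basis element of a degree -/
def xd (d : D) : Lm := AddMonoidAlgebra.single d 1
lemma xd_add (d e : D) : xd (d + e) = xd d * xd e := by
  simp [xd, AddMonoidAlgebra.single_mul_single]
lemma xd_zero : xd 0 = 1 := rfl
lemma xd_sum {ι : Type*} (s : Finset ι) (d : ι → D) : xd (∑ i ∈ s, d i) = ∏ i ∈ s, xd (d i) := by
  classical
  induction s using Finset.induction_on with
  | empty => simp [xd_zero]
  | insert i s hi ih => rw [Finset.sum_insert hi, Finset.prod_insert hi, xd_add, ih]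

/-- the representation of the group ring attached to an action of `D` -/
def rho {N : Type*} [AddCommGroup N] (τ : D → N →+ N) (h0 : ∀ n, τ 0 n = n)
    (ha : ∀ d e n, τ (d + e) n = τ d (τ e n)) : Lm →ₐ[ℤ] Module.End ℤ N :=
  AddMonoidAlgebra.lift ℤ (Module.End ℤ N) D
    { toFun := fun d => (τ d.toAdd).toIntLinearMap
      map_one' := LinearMap.ext h0
      map_mul' := fun d e => LinearMap.ext (ha d.toAdd e.toAdd) }
lemma rho_xd {N : Type*} [AddCommGroup N] (τ : D → N →+ N) (h0 ha) (d : D) (n : N) :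
    rho τ h0 ha (xd d) n = τ d n := by
  rw [rho, xd, AddMonoidAlgebra.lift_single, one_smul]; rfl

/-- combinations of degrees living in the blocks `S` that are at least `κ` -/
def W (S : Finset ℕ) (κ : ℕ → ℤ) : AddSubgroup Lm :=
  AddSubgroup.closure (xd '' {d | d ∈ DS S ∧ ∀ b ∈ S, κ b ≤ d (some b)})
variable {S : Finset ℕ}
lemma xd_mem {κ : ℕ → ℤ} {d : D} (h : d ∈ DS S) (h' : ∀ b ∈ S, κ b ≤ d (some b)) : xd d ∈ W S κ :=
  AddSubgroup.subset_closure ⟨d, ⟨h, h'⟩, rfl⟩
lemma W_ind {κ : ℕ → ℤ} {P : Lm → Prop}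
    (hx : ∀ d ∈ DS S, (∀ b ∈ S, κ b ≤ d (some b)) → P (xd d)) (h0 : P 0)
    (hadd : ∀ a b, P a → P b → P (a + b)) (hneg : ∀ a, P a → P (-a)) {c : Lm} (hc : c ∈ W S κ) :
    P c := by
  induction hc using AddSubgroup.closure_induction with
  | mem c hc => obtain ⟨d, hd, rfl⟩ := hc; exact hx d hd.1 hd.2
  | zero => exact h0
  | add a b _ _ ha hb => exact hadd a b ha hb
  | neg a _ ha => exact hneg a ha
lemma W_mono {κ κ' : ℕ → ℤ} (h : ∀ b ∈ S, κ' b ≤ κ b) {c : Lm} (hc : c ∈ W S κ) : c ∈ W S κ' :=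
  AddSubgroup.closure_mono (by
    rintro _ ⟨d, hd, rfl⟩
    exact ⟨d, ⟨hd.1, fun b hb => (h b hb).trans (hd.2 b hb)⟩, rfl⟩) hc
lemma W_mul {κ κ' : ℕ → ℤ} {c c' : Lm} (hc : c ∈ W S κ) (hc' : c' ∈ W S κ') :
    c * c' ∈ W S (κ + κ') := by
  refine W_ind (P := fun c => c * c' ∈ W S (κ + κ')) (fun d hd hκ => ?_) (by simp)
    (fun a b ha hb => by rw [add_mul]; exact add_mem ha hb)
    (fun a ha => by rw [neg_mul]; exact neg_mem ha) hc
  refine W_ind (P := fun c' => xd d * c' ∈ W S (κ + κ')) (fun e he hκ' => ?_) (by simp)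
    (fun a b ha hb => by rw [mul_add]; exact add_mem ha hb)
    (fun a ha => by rw [mul_neg]; exact neg_mem ha) hc'
  rw [← xd_add]
  exact xd_mem (add_mem hd he) fun b hb => add_le_add (hκ b hb) (hκ' b hb)
lemma one_mem_W : (1 : Lm) ∈ W S 0 := xd_mem (zero_mem _) fun _ _ => le_rfl
lemma W_prod {ι : Type*} (s : Finset ι) {κ : ι → ℕ → ℤ} {c : ι → Lm}
    (h : ∀ i ∈ s, c i ∈ W S (κ i)) : ∏ i ∈ s, c i ∈ W S (∑ i ∈ s, κ i) := by
  classical
  induction s using Finset.induction_on with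
  | empty => simpa using one_mem_W
  | insert i s hi ih =>
    rw [Finset.sum_insert hi, Finset.prod_insert hi]
    exact W_mul (h i (by simp)) (ih fun j hj => h j (by simp [hj]))

lemma vdeg_apply (v : Var) (b : ℕ) : vdeg v (some b) = if v.1 = b then 1 else 0 := by
  by_cases h : v.1 = b <;> simp [vdeg, eB, eT, h]

/-- the Koszul element of a set of variables -/
def kos (V : Finset Var) : Lm := ∏ v ∈ V, (1 - xd (vdeg v))
lemma one_sub_kos_mem {b : ℕ} (hb : b ∈ S) (V : Finset Var) (hV : ∀ v ∈ V, v.1 = b) :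
    1 - kos V ∈ W S (Pi.single b 1) := by
  classical
  induction V using Finset.induction_on with
  | empty => simp [kos]
  | insert v V hv ih =>
    have h1 := ih fun w hw => hV w (by simp [hw])
    have hvb : v.1 = b := hV v (by simp)
    have h2 : xd (vdeg v) ∈ W S (Pi.single b 1) :=
      xd_mem (vdeg_mem (hvb ▸ hb)) fun c _ => by
        rw [vdeg_apply, hvb, Pi.single_apply]
        split_ifs <;> omega
    have h3 : kos V ∈ W S 0 := by
      have := sub_mem one_mem_W (W_mono (κ' := 0) (fun c _ => by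
        rw [Pi.single_apply]; split_ifs <;> simp) h1)
      simpa using this
    have h4 := W_mul h2 h3
    rw [add_zero] at h4
    have : 1 - kos (insert v V) = (1 - kos V) + xd (vdeg v) * kos V := by
      rw [kos, Finset.prod_insert hv, ← kos]; ring
    rw [this]
    exact add_mem h1 h4

/-- the raising element of the block `b` -/
def ub (V : Finset Var) (b : ℕ) : Lm := 1 - kos (V.filter fun v => v.1 = b)
lemma ub_mem {b : ℕ} (hb : b ∈ S) (V : Finset Var) : ub V b ∈ W S (Pi.single b 1) :=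
  one_sub_kos_mem hb _ fun _ hv => (Finset.mem_filter.1 hv).2
lemma ub_mem_zero {b : ℕ} (hb : b ∈ S) (V : Finset Var) : ub V b ∈ W S 0 :=
  W_mono (fun c _ => by rw [Pi.single_apply]; split_ifs <;> simp) (ub_mem hb V)
lemma kos_mem_zero {b : ℕ} (hb : b ∈ S) (V : Finset Var) :
    kos (V.filter fun v => v.1 = b) ∈ W S 0 := by
  simpa [ub] using sub_mem one_mem_W (ub_mem_zero hb V)
/-- the raising element -/
def U (S : Finset ℕ) (V : Finset Var) : Lm := ∏ b ∈ S, ub V b
lemma U_mem (V : Finset Var) : U S V ∈ W S fun _ => 1 :=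
  W_mono (fun b hb => by simp [Finset.sum_apply, Pi.single_apply, hb])
    (W_prod S fun _ hb => ub_mem hb V)
lemma U_pow_mem (V : Finset Var) (k : ℕ) : U S V ^ k ∈ W S fun _ => k := by
  induction k with
  | zero => exact W_mono (fun _ _ => by simp) one_mem_W
  | succ k ih => rw [pow_succ]; exact W_mono (fun _ _ => by simp) (W_mul ih (U_mem V))

lemma one_sub_U {N : Type*} [AddCommGroup N] (ρ : Lm →ₐ[ℤ] Module.End ℤ N) (E : AddSubgroup N)
    (hE : ∀ c ∈ W S 0, ∀ n ∈ E, ρ c n ∈ E) (V : Finset Var) {n : N}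
    (h : ∀ b ∈ S, ρ (kos (V.filter fun v => v.1 = b)) n ∈ E) : ρ (1 - U S V) n ∈ E := by
  have key : ∀ T ⊆ S, ρ (1 - ∏ b ∈ T, ub V b) n ∈ E := by
    intro T hT
    induction T using Finset.induction_on with
    | empty => simp
    | insert b T hb ih =>
      have hbS : b ∈ S := hT (by simp)
      have : 1 - ∏ c ∈ insert b T, ub V c =
          kos (V.filter fun v => v.1 = b) + ub V b * (1 - ∏ c ∈ T, ub V c) := by
        rw [Finset.prod_insert hb, ub]; ring
      rw [this, map_add, map_mul]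
      exact add_mem (h b hbS) (hE _ (ub_mem_zero hbS V) _ (ih fun c hc => hT (by simp [hc])))
  exact key S subset_rfl

/-! ### functions of the degree -/

variable {A : Type*} [AddCommGroup A]
/-- translation of functions -/
def tr (d : D) : (D → A) →+ (D → A) where
  toFun f e := f (e + d)
  map_zero' := rfl
  map_add' _ _ := rfl
/-- the action on functions -/
def rhoF (A : Type*) [AddCommGroup A] : Lm →ₐ[ℤ] Module.End ℤ (D → A) :=
  rho tr (fun f => funext fun e => congrArg f (add_zero e))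
    fun d e f => funext fun c => congrArg f (add_assoc c d e).symm
lemma rhoF_xd (d : D) (f : D → A) : rhoF A (xd d) f = fun e => f (e + d) := rho_xd _ _ _ d f
/-- all coordinates in `S` are at least `k` -/
def Bg (S : Finset ℕ) (k : ℤ) (d : D) : Prop := ∀ b ∈ S, k ≤ d (some b)
lemma Bg.mono {k k' : ℤ} {d : D} (h : Bg S k d) (hk : k' ≤ k) : Bg S k' d :=
  fun b hb => hk.trans (h b hb)
lemma rhoF_van {j k : ℤ} {c : Lm} (hc : c ∈ W S fun _ => j) {f : D → A}
    (hf : ∀ d, Bg S k d → f d = 0) {d : D} (hd : Bg S (k - j) d) : rhoF A c f d = 0 := by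
  refine W_ind (P := fun c => rhoF A c f d = 0) (fun e _ he => ?_) (by simp)
    (fun a b ha hb => by simp [ha, hb]) (fun a ha => by simp [ha]) hc
  rw [rhoF_xd]
  exact hf _ fun b hb => by
    have h1 := hd b hb
    have h2 := he b hb
    rw [Finsupp.add_apply]; omega
lemma rhoF_comp {A' : Type*} [AddCommGroup A'] (φ : A →+ A') {κ : ℕ → ℤ} {c : Lm}
    (hc : c ∈ W S κ) (f : D → A) (d : D) : rhoF A' c (fun e => φ (f e)) d = φ (rhoF A c f d) :=
  W_ind (P := fun c => rhoF A' c (fun e => φ (f e)) d = φ (rhoF A c f d))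
    (fun e _ _ => by rw [rhoF_xd, rhoF_xd]) (by simp)
    (fun a b ha hb => by simp [ha, hb]) (fun a ha => by simp [ha]) hc
/-- functions vanishing in high degrees -/
def Ev0 (S : Finset ℕ) (A : Type*) [AddCommGroup A] : AddSubgroup (D → A) where
  carrier := {f | ∃ k, ∀ d, Bg S k d → f d = 0}
  zero_mem' := ⟨0, fun _ _ => rfl⟩
  add_mem' := by
    rintro f g ⟨k, hk⟩ ⟨j, hj⟩
    exact ⟨max k j, fun d hd => by
      rw [Pi.add_apply, hk d (hd.mono (le_max_left _ _)), hj d (hd.mono (le_max_right _ _)),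
        add_zero]⟩
  neg_mem' := by
    rintro f ⟨k, hk⟩
    exact ⟨k, fun d hd => by rw [Pi.neg_apply, hk d hd, neg_zero]⟩
lemma rhoF_ev0 {c : Lm} (hc : c ∈ W S 0) {f : D → A} (hf : f ∈ Ev0 S A) : rhoF A c f ∈ Ev0 S A := by
  obtain ⟨k, hk⟩ := hf
  exact ⟨k, fun d hd => rhoF_van (j := 0) hc hk (by simpa using hd)⟩

/-- the value at `0` of the extension to all degrees of a function that is recurrent in high
degrees -/
theorem exists_lim (S : Finset ℕ) (V : Finset Var) (A : Type*) [AddCommGroup A] :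
    ∃ L : (D → A) → A,
      (∀ f g h, rhoF A (1 - U S V) g ∈ Ev0 S A → rhoF A (1 - U S V) h ∈ Ev0 S A →
        f - (g + h) ∈ Ev0 S A → L f = L g + L h) ∧
      (∀ f ∈ Ev0 S A, L f = 0) ∧
      (∀ f, rhoF A (1 - U S V) f ∈ Ev0 S A → ∃ k, ∀ d, Bg S k d → L (fun e => f (e + d)) = f d) ∧
      ∀ (φ : A →+ A) f g, rhoF A (1 - U S V) f ∈ Ev0 S A → g - (fun e => φ (f e)) ∈ Ev0 S A →
        L g = φ (L f) := by
  classical
  let P : (D → A) → A → Prop := fun f a => ∃ k₀ : ℕ, ∀ k ≥ k₀, rhoF A (U S V ^ k) f 0 = a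
  have huniq : ∀ f a a', P f a → P f a' → a = a' := by
    rintro f a a' ⟨k, hk⟩ ⟨j, hj⟩
    rw [← hk (max k j) (le_max_left _ _), hj (max k j) (le_max_right _ _)]
  have hL : ∀ f a, P f a → (if h : ∃ a, P f a then h.choose else 0) = a := fun f a h => by
    rw [dif_pos ⟨a, h⟩]
    exact huniq f _ _ (Exists.choose_spec ⟨a, h⟩) h
  have hstep : ∀ (f : D → A) (k₀ : ℤ), (∀ d, Bg S k₀ d → rhoF A (1 - U S V) f d = 0) →
      ∀ (j : ℕ) d, Bg S (k₀ - j) d → ∀ k ≥ j, rhoF A (U S V ^ k) f d = rhoF A (U S V ^ j) f d := by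
    intro f k₀ hf j d hd k hk
    induction k, hk using Nat.le_induction with
    | base => rfl
    | succ k hk ih =>
      have h1 := rhoF_van (U_pow_mem V k) hf (hd.mono (k' := k₀ - k) (by omega))
      rw [← Module.End.mul_apply, ← map_mul, mul_sub, mul_one, ← pow_succ, map_sub,
        LinearMap.sub_apply, Pi.sub_apply, sub_eq_zero] at h1
      rw [← h1, ih]
  have hex : ∀ f, rhoF A (1 - U S V) f ∈ Ev0 S A → ∃ a, P f a := by
    rintro f ⟨k₀, hk⟩
    exact ⟨_, k₀.toNat, hstep f k₀ hk k₀.toNat 0 fun b _ => by simp⟩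
  have hev : ∀ f ∈ Ev0 S A, P f 0 := by
    rintro f ⟨k₀, hk⟩
    exact ⟨k₀.toNat, fun k hk' => rhoF_van (U_pow_mem V k) hk fun b _ => by simp; omega⟩
  have hadd : ∀ f g a b, P f a → P g b → P (f + g) (a + b) := by
    rintro f g a b ⟨k, hk⟩ ⟨j, hj⟩
    exact ⟨max k j, fun i hi => by
      rw [map_add, Pi.add_apply, hk i (le_of_max_le_left hi), hj i (le_of_max_le_right hi)]⟩
  refine ⟨fun f => if h : ∃ a, P f a then h.choose else 0, fun f g h hg hh hf => ?_,
    fun f hf => hL f 0 (hev f hf), ?_, fun φ f g hf hg => ?_⟩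
  · obtain ⟨a, ha⟩ := hex g hg
    obtain ⟨b, hb⟩ := hex h hh
    have := hadd _ _ _ _ (hev _ hf) (hadd _ _ _ _ ha hb)
    rw [sub_add_cancel, zero_add] at this
    simp only [hL _ _ this, hL _ _ ha, hL _ _ hb]
  · rintro f ⟨k₀, hk⟩
    refine ⟨k₀, fun d hd => hL _ _ ⟨0, fun k _ => ?_⟩⟩
    have h1 := hstep f k₀ hk 0 d (by simpa using hd) k (Nat.zero_le k)
    rw [← rhoF_xd, ← Module.End.mul_apply, ← map_mul, mul_comm, map_mul, Module.End.mul_apply,
      rhoF_xd]
    simpa using h1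
  · obtain ⟨a, k, hk⟩ := hex f hf
    have h1 : P (fun e => φ (f e)) (φ a) :=
      ⟨k, fun i hi => by rw [rhoF_comp φ (U_pow_mem V i), hk i hi]⟩
    have := hadd _ _ _ _ (hev _ hg) h1
    rw [sub_add_cancel, zero_add] at this
    simp only [hL _ _ this, hL _ _ ⟨k, hk⟩]

end Crest.Agent.N265.PA
end
end

-- ▼ part N265/G/PushT
section

/-! # Push-forward, part T: tails of graded modules and elimination (helper39) -/

set_option autoImplicit false
noncomputable section
open MvPolynomial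

namespace Crest.Agent.N265
open GM PA

lemma rad_pow_le (J : Ideal R) (V : Finset Var) (hV : ∀ v ∉ V, (X v : R) ∈ J) :
    ∃ n : ℕ, J.radical ^ n ≤ J := by
  have := noeth_quot J V hV
  obtain ⟨n, hn⟩ := IsNoetherianRing.isNilpotent_nilradical (R ⧸ J)
  refine ⟨n, ?_⟩
  have h1 : J.radical.map (Ideal.Quotient.mk J) ≤ nilradical (R ⧸ J) := by
    rw [Ideal.map_le_iff_le_comap]
    rintro r ⟨k, hk⟩
    exact ⟨k, by rw [← map_pow]; exact Ideal.Quotient.eq_zero_iff_mem.2 hk⟩
  have h2 : (J.radical ^ n).map (Ideal.Quotient.mk J) = ⊥ := by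
    rw [Ideal.map_pow, eq_bot_iff]
    exact (Ideal.pow_right_mono h1 n).trans hn.le
  rwa [Ideal.map_eq_bot_iff_le_ker, Ideal.mk_ker] at h2

lemma chain_stab (J : ℕ → Ideal R) (hJ : Monotone J) (V : Finset Var)
    (hV : ∀ v ∉ V, (X v : R) ∈ J 0) : ∃ n, ∀ m, J m ≤ J n := by
  have := noeth_quot (J 0) V hV
  obtain ⟨n, hn⟩ := monotone_stabilizes_iff_noetherian.2 (inferInstance : IsNoetherian (R ⧸ J 0) _)
    ⟨fun k => (J k).map (Ideal.Quotient.mk (J 0)), fun a b h => Ideal.map_mono (hJ h)⟩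
  refine ⟨n, fun m => ?_⟩
  rcases le_total m n with h | h
  · exact hJ h
  intro r hr
  have h1 : Ideal.Quotient.mk (J 0) r ∈ (J n).map (Ideal.Quotient.mk (J 0)) := by
    have h2 : (J n).map (Ideal.Quotient.mk (J 0)) = (J m).map (Ideal.Quotient.mk (J 0)) := hn m h
    rw [h2]
    exact Ideal.mem_map_of_mem _ hr
  rw [← Ideal.mem_comap, Ideal.comap_map_of_surjective _ Ideal.Quotient.mk_surjective,
    ← RingHom.ker_eq_comap_bot, Ideal.mk_ker, sup_eq_left.2 (hJ (Nat.zero_le n))] at h1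
  exact h1

/-- the ideal of the variables of a block -/
def blkI (b : ℕ) : Ideal R := Ideal.span ((X : Var → R) '' {v | v.1 = b})

lemma X_mem_blkI (v : Var) : (X v : R) ∈ blkI v.1 :=
  Ideal.subset_span (show (X v : R) ∈ (X : Var → R) '' {w | w.1 = v.1} from ⟨v, rfl, rfl⟩)

lemma monomial_mem_blk (S : Finset ℕ) (u : Var →₀ ℕ) :
    (monomial u 1 : R) ∈ ∏ b ∈ S, blkI b ^ (Finsupp.weight vdeg u (some b)).toNat ∧
      ∀ b, 0 ≤ Finsupp.weight vdeg u (some b) := by
  classical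
  induction u using Finsupp.induction_linear with
  | zero =>
    refine ⟨?_, by simp⟩
    rw [Finset.prod_eq_one fun b _ => by simp, Ideal.one_eq_top]
    exact Submodule.mem_top
  | add u w hu hw =>
    refine ⟨?_, fun b => by rw [map_add, Finsupp.add_apply]; exact add_nonneg (hu.2 b) (hw.2 b)⟩
    rw [show (monomial (u + w) 1 : R) = monomial u 1 * monomial w 1 by
      rw [monomial_mul, one_mul]]
    have := Ideal.mul_mem_mul hu.1 hw.1
    rw [← Finset.prod_mul_distrib] at this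
    convert this using 2 with b
    rw [← pow_add, map_add, Finsupp.add_apply, Int.toNat_add (hu.2 b) (hw.2 b)]
  | single v n =>
    have h1 : ∀ b, Finsupp.weight vdeg (Finsupp.single v n) (some b) =
        if v.1 = b then (n : ℤ) else 0 := fun b => by
      rw [Finsupp.weight_single, Finsupp.smul_apply, vdeg_apply]; split_ifs <;> simp
    refine ⟨?_, fun b => by rw [h1]; split_ifs <;> simp⟩
    by_cases hv : v.1 ∈ S
    · rw [Finset.prod_eq_single_of_mem v.1 hv fun b _ hb => by simp [h1, hb.symm], h1, if_pos rfl,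
        ← X_pow_eq_monomial, Int.toNat_natCast]
      exact Ideal.pow_mem_pow (X_mem_blkI v) n
    · rw [Finset.prod_eq_one fun b hb => by
        rw [h1, if_neg (fun e : v.1 = b => hv (e ▸ hb))]; simp]
      simp

/-- homogeneous polynomials of high degree lie in a high power of the irrelevant ideal -/
lemma Hmg.mem_blk_pow {d : D} {r : R} (h : Hmg d r) {S : Finset ℕ} {n : ℕ} (hd : Bg S n d) :
    r ∈ (∏ b ∈ S, blkI b) ^ n := by
  rw [r.as_sum]
  refine sum_mem fun u hu => ?_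
  have hw : Finsupp.weight vdeg u = d := hmg_iff.1 h (mem_support_iff.1 hu)
  have h1 := (monomial_mem_blk S u).1
  rw [hw] at h1
  rw [show (MvPolynomial.monomial u (coeff u r) : R) =
      MvPolynomial.C (coeff u r) * MvPolynomial.monomial u 1 by
    rw [C_mul_monomial, mul_one], ← Finset.prod_pow]
  have h2 : ∏ b ∈ S, blkI b ^ (d (some b)).toNat ≤ ∏ b ∈ S, blkI b ^ n :=
    Finset.prod_le_prod' fun b hb => Ideal.pow_le_pow_right (by have := hd b hb; omega)
  exact Ideal.mul_mem_left _ _ (h2 h1)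

namespace GM
variable {M : GM}

lemma cp_smul_eq_zero {e : D} (r : R) {m : M.M}
    (h : ∀ f, hc f r = 0 ∨ M.cp (e - f) m = 0) : M.cp e (r • m) = 0 := by
  obtain ⟨s, hs, -⟩ := exists_sum_hc r
  rw [← hs, Finset.sum_smul, map_sum]
  refine Finset.sum_eq_zero fun f _ => ?_
  have := M.cp_smul (hc_hmg f r) (e - f) m
  rw [add_sub_cancel] at this
  rw [this]
  rcases h f with h | h <;> simp [h]

/-- the part of `M` in degrees that are at least `k` in all blocks of `S` -/
def tl (M : GM) (S : Finset ℕ) (k : ℤ) : Submodule R M.M where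
  carrier := {m | ∀ e, ¬ Bg S k e → M.cp e m = 0}
  add_mem' := by intro a b ha hb e he; rw [map_add, ha e he, hb e he, add_zero]
  zero_mem' := fun e _ => map_zero _
  smul_mem' := by
    intro r m hm e he
    refine cp_smul_eq_zero r fun f => ?_
    by_cases h0 : ∃ b, f (some b) < 0
    · obtain ⟨b, hb⟩ := h0
      exact Or.inl ((hc_hmg f r).eq_zero_of_neg hb)
    · push Not at h0
      refine Or.inr (hm _ fun h => he fun b hb => ?_)
      have h1 := h b hb
      have h2 := h0 b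
      rw [Finsupp.sub_apply] at h1
      omega
variable {S : Finset ℕ} {k : ℤ}
lemma mem_tl_of_gr {e : D} {m : M.M} (hm : m ∈ M.gr e) (he : Bg S k e) : m ∈ M.tl S k :=
  fun _ hf => M.cp_of_mem_ne hm fun h => hf (h ▸ he)
lemma tl_anti {k' : ℤ} (h : k ≤ k') : M.tl S k' ≤ M.tl S k :=
  fun _ hm e he => hm e fun h' => he (h'.mono h)
lemma tl_ind {P : M.M → Prop} (h0 : P 0) (hadd : ∀ a b, P a → P b → P (a + b))
    (hgr : ∀ e, Bg S k e → ∀ m ∈ M.gr e, m ∈ M.tl S k → P m) {m : M.M} (hm : m ∈ M.tl S k) :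
    P m := by
  obtain ⟨s, hs, -⟩ := M.exists_sum_cp m
  rw [← hs]
  refine Finset.sum_induction _ P hadd h0 fun e _ => ?_
  by_cases he : Bg S k e
  · exact hgr e he _ (M.cp_mem e m) (mem_tl_of_gr (M.cp_mem e m) he)
  · rw [hm e he]; exact h0
lemma exists_trunc (S : Finset ℕ) (k : ℤ) (m : M.M) :
    ∃ m' ∈ M.tl S k, ∀ e, Bg S k e → M.cp e m' = M.cp e m := by
  classical
  obtain ⟨s, -, hs⟩ := M.exists_sum_cp m
  refine ⟨∑ e ∈ s.filter (Bg S k), M.cp e m, sum_mem fun e he =>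
    mem_tl_of_gr (M.cp_mem e m) (Finset.mem_filter.1 he).2, fun d hd => ?_⟩
  rw [map_sum, Finset.sum_eq_single d]
  · exact M.cp_of_mem (M.cp_mem d m)
  · exact fun e _ he => M.cp_of_mem_ne (M.cp_mem e m) he.symm
  · intro h
    rw [hs d fun h' => h (Finset.mem_filter.2 ⟨h', hd⟩), map_zero]

lemma exists_tl_le (M : GM) (S : Finset ℕ) :
    ∃ c : ℤ, ∀ n : ℕ, M.tl S (c + n) ≤ (∏ b ∈ S, blkI b) ^ n • ⊤ := by
  obtain ⟨l, d, g, hg, -, hsp⟩ := (stab_top (M := M)).exists_gens
  obtain ⟨c, hc'⟩ := (Set.finite_range fun p : Fin l × S => d p.1 (some p.2.1)).bddAbove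
  refine ⟨c, fun n m hm => tl_ind (P := fun m => m ∈ (∏ b ∈ S, blkI b) ^ n • (⊤ : Submodule R M.M))
    (zero_mem _) (fun a b => add_mem) (fun e he m hm _ => ?_) hm⟩
  obtain ⟨r, hr⟩ := (Submodule.mem_span_range_iff_exists_fun R).1 (hsp.ge (Submodule.mem_top (x := m)))
  rw [← M.cp_of_mem hm, ← hr, map_sum]
  refine sum_mem fun i _ => ?_
  have := M.cp_smul' (hg i) (e - d i) (r i)
  rw [sub_add_cancel] at this
  rw [this]
  refine Submodule.smul_mem_smul ((hc_hmg _ _).mem_blk_pow fun b hb => ?_) Submodule.mem_top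
  have h1 : d i (some b) ≤ c := hc' ⟨(i, ⟨b, hb⟩), rfl⟩
  have h2 := he b hb
  rw [Finsupp.sub_apply]
  omega

/-- elimination at one point -/
lemma exists_kill_tl (M : GM) {B S : Finset ℕ} (hBS : ∀ b ∈ S, b ∉ B) (x : Pt)
    (h : ∀ y : Pt, (∀ v : Var, v.1 ∈ B → y v = x v) → Rel S y → M.Kill y) :
    ∃ (k : ℤ) (r : R), eval x r ≠ 0 ∧ ∀ m ∈ M.tl S k, N265.kill B r • m = 0 := by
  obtain ⟨V, hV⟩ := M.fin
  set mB : Ideal R := Ideal.span ((fun v => (X v : R) - C (x v)) '' {v | v.1 ∈ B}) with hmB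
  set J : Ideal R := Module.annihilator R M.M ⊔ mB with hJ
  have hVJ : ∀ v ∉ V, (X v : R) ∈ J := fun v hv =>
    Ideal.mem_sup_left (Module.mem_annihilator.2 (hV v hv))
  have hrad : ∏ b ∈ S, blkI b ≤ J.radical := fun r hr => nss J V hVJ fun y hy => by
    by_cases hrel : Rel S y
    · obtain ⟨s, hs, hs'⟩ := h y (fun v hv => by
        have := hy _ (Ideal.mem_sup_right (Ideal.subset_span ⟨v, hv, rfl⟩))
        simpa [sub_eq_zero] using this) hrel
      exact absurd (hy s (Ideal.mem_sup_left (Module.mem_annihilator.2 hs'))) hs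
    · simp only [Rel, not_forall, not_exists, not_and, not_not] at hrel
      obtain ⟨b, hb, hb'⟩ := hrel
      have h1 : blkI b ≤ mx y := Ideal.span_le.2 (by
        rintro _ ⟨v, hv, rfl⟩
        exact mem_mx.2 (by rw [eval_X]; exact hb' v hv))
      exact h1 ((Ideal.prod_le_inf.trans (Finset.inf_le hb)) hr)
  obtain ⟨n, hn⟩ := rad_pow_le J V hVJ
  obtain ⟨c, hc'⟩ := M.exists_tl_le S
  have h1 : M.tl S (c + n) ≤ mB • ⊤ := by
    refine (hc' n).trans ((Submodule.smul_mono_left ((Ideal.pow_right_mono hrad n).trans hn)).trans ?_)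
    rw [hJ, Submodule.sup_smul]
    refine sup_le (Submodule.smul_le.2 fun r hr m _ => ?_) le_rfl
    rw [Module.mem_annihilator.1 hr m]; exact zero_mem _
  have h2 : ∀ a ∈ mB, ∀ m : M.M, ∃ m' ∈ mB • M.tl S (c + n), ∀ e, Bg S (c + n) e →
      M.cp e m' = M.cp e (a • m) := by
    intro a ha
    induction ha using Submodule.span_induction with
    | mem a ha =>
      obtain ⟨v, hv, rfl⟩ := ha
      intro m
      obtain ⟨m', hm', he⟩ := exists_trunc S (c + n) m
      refine ⟨(X v - C (x v) : R) • m', Submodule.smul_mem_smul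
        (Ideal.subset_span ⟨v, hv, rfl⟩) hm', fun e hb => ?_⟩
      have hb' : Bg S (c + n) (e - vdeg v) := fun b hbS => by
        rw [Finsupp.sub_apply, vdeg_apply, if_neg (fun e : v.1 = b => hBS b hbS (e ▸ hv)), sub_zero]
        exact hb b hbS
      have key : ∀ m : M.M, M.cp e ((X v - C (x v) : R) • m) =
          (X v : R) • M.cp (e - vdeg v) m - x v • M.cp e m := fun m => by
        have := M.cp_smul (Hmg.X v) (e - vdeg v) m
        rw [add_sub_cancel] at this
        rw [sub_smul, map_sub, this, ← c_smul, map_smul]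
      rw [key, key, he e hb, he _ hb']
    | zero => exact fun m => ⟨0, zero_mem _, fun e _ => by rw [zero_smul]⟩
    | add a b _ _ ha hb =>
      intro m
      obtain ⟨p, hp, h3⟩ := ha m
      obtain ⟨q, hq, h4⟩ := hb m
      exact ⟨p + q, add_mem hp hq, fun e he => by rw [add_smul, map_add, map_add, h3 e he, h4 e he]⟩
    | smul r a _ ha =>
      intro m
      rw [smul_eq_mul, mul_comm, mul_smul]
      exact ha _
  have h3 : M.tl S (c + n) ≤ mB • M.tl S (c + n) := by
    intro m hm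
    have h4 : ∃ m' ∈ mB • M.tl S (c + n), ∀ e, Bg S (c + n) e → M.cp e m' = M.cp e m := by
      refine Submodule.smul_induction_on (h1 hm) (fun a ha m _ => h2 a ha m) ?_
      rintro a b ⟨p, hp, h3⟩ ⟨q, hq, h4⟩
      exact ⟨p + q, add_mem hp hq, fun e he => by rw [map_add, map_add, h3 e he, h4 e he]⟩
    obtain ⟨m', hm', he⟩ := h4
    have : m' = m := eq_of_cp fun e => by
      by_cases hb : Bg S (c + n) e
      · exact he e hb
      · rw [hm e hb, Submodule.smul_le_right hm' e hb]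
    exact this ▸ hm'
  obtain ⟨r, hr, hr'⟩ := Submodule.exists_sub_one_mem_and_smul_eq_zero_of_fg_of_le_smul mB _
    (IsNoetherian.noetherian (M.tl S (c + n))) h3
  refine ⟨c + n, N265.kill B r, ?_, fun m hm => ?_⟩
  · have h4 : mB ≤ mx (restr B x) := Ideal.span_le.2 (by
      rintro _ ⟨v, hv, rfl⟩
      exact mem_mx.2 (by simp [restr, show v.1 ∈ B from hv]))
    have h5 := mem_mx.1 (h4 hr)
    rw [map_sub, map_one, sub_eq_zero] at h5
    rw [eval_kill, h5]; exact one_ne_zero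
  · rw [Sp.kill_kill, Finset.inter_self]
    refine tl_ind (P := fun m => N265.kill B r • m = 0) (smul_zero _)
      (fun a b ha hb => by rw [smul_add, ha, hb, add_zero]) (fun e _ m hme hm => ?_) hm
    obtain ⟨s, hs, -⟩ := exists_sum_hc r
    rw [← hs, map_sum, Finset.sum_smul]
    refine Finset.sum_eq_zero fun f _ => ?_
    by_cases hf : f ∈ DS B
    · rw [(hc_hmg f r).kill_eq_self hf, ← M.cp_smul' hme, hr' m hm, map_zero]
    · rw [(hc_hmg f r).kill_eq_zero hf, zero_smul]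

/-- elimination, uniformly in the point -/
lemma exists_kill_tl_unif (M : GM) {B S : Finset ℕ} (hBS : ∀ b ∈ S, b ∉ B) :
    ∃ k : ℤ, ∀ x : Pt, (∀ y : Pt, (∀ v : Var, v.1 ∈ B → y v = x v) → Rel S y → M.Kill y) →
      ∃ r : R, eval x r ≠ 0 ∧ ∀ m ∈ M.tl S k, N265.kill B r • m = 0 := by
  obtain ⟨V, hV⟩ := M.fin
  obtain ⟨n, hn⟩ := chain_stab (fun k : ℕ => ((M.tl S k).annihilator).comap (N265.kill B))
    (fun a b hab => Ideal.comap_mono (Submodule.annihilator_mono (tl_anti (by exact_mod_cast hab))))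
    V fun v hv => Ideal.mem_comap.2 (Submodule.mem_annihilator.2 fun m _ => by
      by_cases h : v.1 ∈ B <;> simp [h, hV v hv])
  refine ⟨n, fun x hx => ?_⟩
  obtain ⟨k, r, hr, h⟩ := M.exists_kill_tl hBS x hx
  exact ⟨r, hr, Submodule.mem_annihilator.1 (Ideal.mem_comap.1 (hn k.toNat (Ideal.mem_comap.2
    (Submodule.mem_annihilator.2 fun m hm => h m (tl_anti (Int.self_le_toNat k) hm)))))⟩

lemma piece_val_mem_tl {B : Finset ℕ} (hBS : ∀ b ∈ S, b ∉ B) {d : D} (hd : Bg S k d)
    (m : PieceT B (M.shift d)) : (show M.M from m.val) ∈ M.tl S k := by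
  have hm : m.val ∈ pieceSub B (M.shift d) := Subtype.property m
  generalize m.val = a at hm
  induction hm using AddSubgroup.closure_induction with
  | mem a ha =>
    obtain ⟨e, he, ha⟩ := ha
    rw [shift_gr] at ha
    exact mem_tl_of_gr ha fun b hb => by
      rw [Finsupp.add_apply, he b (hBS b hb), zero_add]; exact hd b hb
  | zero => exact zero_mem _
  | add a b _ _ ha hb => exact add_mem ha hb
  | neg a _ ha => exact neg_mem ha

/-- high pieces are killed at the points with empty fibre -/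
lemma exists_kill_piece {Y : Spc} (hM : M.On Y) (B : Finset ℕ) :
    ∃ k : ℤ, ∀ d, Bg (Y.B \ B) k d → ∀ x, Rel B x →
      (∀ y ∈ Y.pts, restr B y = restr B x → M.Kill y) → (piece B (M.shift d)).Kill x := by
  have hBS : ∀ b ∈ Y.B \ B, b ∉ B := fun b hb => (Finset.mem_sdiff.1 hb).2
  obtain ⟨k, hk⟩ := M.exists_kill_tl_unif hBS
  refine ⟨k, fun d hd x hx h => ?_⟩
  obtain ⟨r, hr, hr'⟩ := hk x fun y hy hrel => by
    by_cases hY : y ∈ Y.pts
    · exact h y hY (funext fun v => by by_cases hv : v.1 ∈ B <;> simp [restr, hv, hy])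
    · refine hM.supp y (fun b hb => ?_) hY
      by_cases hbB : b ∈ B
      · obtain ⟨v, rfl, hv⟩ := hx b hbB
        exact ⟨v, rfl, by rwa [hy v hbB]⟩
      · exact hrel b (Finset.mem_sdiff.2 ⟨hb, hbB⟩)
  exact ⟨r, hr, fun m => PieceT.ext (hr' _ (piece_val_mem_tl hBS hd m))⟩

lemma On.piece_bg {X Y : Spc} (h : Proj Y X) (hM : M.On Y) :
    ∃ k, ∀ d, Bg (Y.B \ X.B) k d → (piece X.B (M.shift d)).On X := by
  obtain ⟨k, hk⟩ := exists_kill_piece hM X.B
  refine ⟨k, fun d hd => ⟨degIn_piece _ _, fun x hx hn => ?_⟩⟩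
  by_cases hr : restr X.B x = x
  · exact hk d hd x hx fun y hy e => absurd (hr ▸ e ▸ h.map y hy) hn
  · rw [Sp.restr_eq_iff] at hr
    push Not at hr
    obtain ⟨v, hv, hv'⟩ := hr
    exact ⟨MvPolynomial.X v, by rwa [eval_X], (degIn_piece _ _).X_smul hv'⟩

lemma Irr.piece_bg (X : Spc) {Y : Spc} (hM : M.On Y) (hi : M.Irr Y) :
    ∃ k, ∀ d, Bg (Y.B \ X.B) k d → (piece X.B (M.shift d)).Irr X := by
  obtain ⟨k, hk⟩ := exists_kill_piece hM X.B
  exact ⟨k, fun d hd x hx => hk d hd x (X.rel x hx) fun y hy _ => hi y hy⟩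

end GM
end Crest.Agent.N265
end
end

-- ▼ part N265/G/PushK
section

/-! # Push-forward, part K: isomorphisms of pieces, the Koszul relation (helper39) -/

set_option autoImplicit false
noncomputable section
open MvPolynomial

namespace Crest.Agent.N265
open GM PA
variable {X Y Z : Spc}

namespace GM
/-- isomorphic graded modules -/
def Iso (A B : GM) : Prop := ∃ f : A.M →ₗ[R] B.M, Deg0 f ∧ Function.Bijective f
lemma Iso.cl {A B : GM} (h : Iso A B) (X : Spc) : cl X A = cl X B :=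
  let ⟨_, hf, hb⟩ := h; cl_bij hf hb
lemma Iso.trans {A B C : GM} (h : Iso A B) (h' : Iso B C) : Iso A C :=
  let ⟨f, hf, hb⟩ := h; let ⟨g, hg, hb'⟩ := h'; ⟨g ∘ₗ f, hg.comp hf, hb'.comp hb⟩
lemma Iso.piece {A A' : GM} (h : Iso A A') (B : Finset ℕ) : Iso (piece B A) (piece B A') := by
  obtain ⟨f, hf, hi, hs⟩ := h
  refine ⟨pieceMap B f hf, deg0_pieceMap B f hf,
    fun a b h => PieceT.ext (hi (congrArg PieceT.val h)), fun c => ?_⟩
  obtain ⟨b, hb⟩ := hs (PieceT.val c)
  exact exists_pieceMap_eq B f hf c hb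
lemma Iso.shift {A A' : GM} (h : Iso A A') (d : D) : Iso (A.shift d) (A'.shift d) :=
  let ⟨f, hf, hb⟩ := h; ⟨f, hf.shift d, hb⟩
lemma iso_shift_shift (M : GM) (d e : D) : Iso ((M.shift d).shift e) (M.shift (e + d)) :=
  ⟨LinearMap.id, deg0_of_gr fun f m hm => by
    rw [shift_gr, shift_gr, add_assoc] at hm
    rw [shift_gr]; exact hm, Function.bijective_id⟩

lemma cp_map_of_gr {A A' : GM} (φ : A.M →+ A'.M) (c : D)
    (h : ∀ e m, m ∈ A.gr e → φ m ∈ A'.gr (e + c)) (d : D) (m : A.M) :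
    A'.cp (d + c) (φ m) = φ (A.cp d m) := by
  obtain ⟨s, hs, hs'⟩ := A.exists_sum_cp m
  conv_lhs => rw [← hs]
  rw [map_sum, map_sum, Finset.sum_eq_single d]
  · exact A'.cp_of_mem (h _ _ (A.cp_mem d m))
  · exact fun e _ he => A'.cp_of_mem_ne (h _ _ (A.cp_mem e m)) fun h' =>
      he (add_right_cancel h').symm
  · intro hd
    rw [hs' d hd, map_zero, map_zero]
lemma shift_cp (M : GM) (d e : D) (m : M.M) : (M.shift d).cp e m = M.cp (e + d) m :=
  (cp_map_of_gr (A := M.shift d) (A' := M) (AddMonoidHom.id _) d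
    (fun _ _ hm => by rwa [shift_gr] at hm) e m).symm
lemma piece_cp_val (B : Finset ℕ) (M : GM) (d : D) (m : PieceT B M) :
    PieceT.val ((piece B M).cp d m) = M.cp d m.val := by
  have := cp_map_of_gr (A := piece B M) (A' := M) (pieceSub B M).subtype 0
    (fun _ _ hm => by rw [add_zero]; exact piece_gr.1 hm) d m
  rw [add_zero] at this
  exact this.symm
lemma mem_pieceSub_shift {B : Finset ℕ} {M : GM} {d : D} {m : M.M} :
    (show (M.shift d).M from m) ∈ pieceSub B (M.shift d) ↔ ∀ e, e - d ∉ DS B → M.cp e m = 0 := by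
  rw [mem_pieceSub]
  refine ⟨fun h e he => ?_, fun h e he => ?_⟩
  · have := h _ he
    rwa [shift_cp, sub_add_cancel] at this
  · rw [shift_cp]
    exact h _ (by rwa [add_sub_cancel_right])

/-- two modules embedded compatibly in one group -/
lemma iso_of_emb {A A' : GM} {N : Type} [AddCommGroup N] (i : A.M →+ N) (i' : A'.M →+ N)
    (hi : Function.Injective i) (hi' : Function.Injective i') (h : ∀ a, ∃ a', i' a' = i a)
    (h' : ∀ a', ∃ a, i a = i' a')
    (hs : ∀ (r : R) a a', i' a' = i a → i' (r • a') = i (r • a))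
    (hg : ∀ d a a', i' a' = i a → a ∈ A.gr d → a' ∈ A'.gr d) : Iso A A' := by
  choose f hf using h
  refine ⟨{ toFun := f
            map_add' := fun a b => hi' (by rw [map_add, hf, hf, hf, map_add])
            map_smul' := fun r a => hi' (by rw [hf]; exact (hs r a _ (hf a)).symm) },
    deg0_of_gr fun d a ha => hg d a _ (hf a) ha,
    fun a b hab => hi (by rw [← hf, ← hf]; exact congrArg i' hab), fun a' => ?_⟩
  obtain ⟨a, ha⟩ := h' a'
  exact ⟨a, hi' ((hf a).trans ha)⟩
/-- the inclusion of a piece -/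
def valH (B : Finset ℕ) (M : GM) : (piece B M).M →+ M.M := (pieceSub B M).subtype
lemma valH_inj (B : Finset ℕ) (M : GM) : Function.Injective (valH B M) := Subtype.val_injective
lemma valH_mem {B : Finset ℕ} {M : GM} (m : (piece B M).M) : valH B M m ∈ pieceSub B M :=
  Subtype.property m
lemma exists_valH {B : Finset ℕ} {M : GM} {m : M.M} (h : m ∈ pieceSub B M) :
    ∃ a, valH B M a = m := ⟨(⟨m, h⟩ : pieceSub B M), rfl⟩
lemma valH_smul {B : Finset ℕ} {M : GM} (r : R) (m : (piece B M).M) :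
    valH B M (r • m) = N265.kill B r • valH B M m := rfl
lemma valH_gr {B : Finset ℕ} {M : GM} {d : D} {m : (piece B M).M} :
    m ∈ (piece B M).gr d ↔ valH B M m ∈ M.gr d := piece_gr
lemma valH_cp {B : Finset ℕ} {M : GM} (d : D) (m : (piece B M).M) :
    valH B M ((piece B M).cp d m) = M.cp d (valH B M m) := piece_cp_val B M d m

lemma iso_piece_shift (B : Finset ℕ) (M : GM) (e : D) {d : D} (hd : d ∈ DS B) :
    Iso ((piece B (M.shift e)).shift d) (piece B (M.shift (d + e))) := by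
  have key : ∀ m : M.M, (show (M.shift e).M from m) ∈ pieceSub B (M.shift e) ↔
      (show (M.shift (d + e)).M from m) ∈ pieceSub B (M.shift (d + e)) := fun m => by
    rw [mem_pieceSub_shift, mem_pieceSub_shift]
    refine forall_congr' fun f => imp_congr_left (not_congr ⟨fun h => ?_, fun h => ?_⟩)
    · simpa [sub_sub, add_comm e d] using sub_mem h hd
    · have := add_mem h hd
      rwa [show f - (d + e) + d = f - e by abel] at this
  refine iso_of_emb (N := M.M) (valH B (M.shift e)) (valH B (M.shift (d + e))) (valH_inj _ _)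
    (valH_inj _ _) (fun a => exists_valH ((key _).1 (valH_mem a)))
    (fun a => exists_valH ((key _).2 (valH_mem a)))
    (fun r a a' h => congrArg (fun m : M.M => N265.kill B r • m) h) fun f a a' h ha => ?_
  rw [shift_gr] at ha
  have h1 := valH_gr.1 ha
  rw [shift_gr, add_assoc] at h1
  refine valH_gr.2 ?_
  rw [shift_gr]
  exact h ▸ h1
lemma iso_piece_self {B : Finset ℕ} {N : GM} (h : N.DegIn B) : Iso (piece B N) N :=
  iso_of_emb (valH B N) (AddMonoidHom.id _) (valH_inj _ _) Function.injective_id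
    (fun _ => ⟨_, rfl⟩)
    (fun m => exists_valH (mem_pieceSub.2 fun d hd => by
      have := N.cp_mem d m
      rwa [h d hd, Submodule.mem_bot] at this))
    (fun r a a' e => by rw [valH_smul, h.kill_smul, ← e]; rfl)
    fun d a a' e ha => by
      have := valH_gr.1 ha
      rwa [← e] at this
lemma iso_piece_piece {B B' : Finset ℕ} (h : B ⊆ B') (N : GM) :
    Iso (piece B (piece B' N)) (piece B N) := by
  refine iso_of_emb ((valH B' N).comp (valH B (piece B' N))) (valH B N)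
    ((valH_inj _ _).comp (valH_inj _ _)) (valH_inj _ _)
    (fun a => exists_valH (mem_pieceSub.2 fun d hd => ?_)) (fun c => ?_) (fun r a a' e => ?_)
    fun d a a' e ha => ?_
  · rw [AddMonoidHom.comp_apply, ← valH_cp, mem_pieceSub.1 (valH_mem a) d hd, map_zero]
  · have hc := mem_pieceSub.1 (valH_mem c)
    obtain ⟨c', e⟩ := exists_valH (B := B') (mem_pieceSub.2 fun d hd =>
      hc d fun h' => hd (DS_mono h h'))
    obtain ⟨c'', e'⟩ := exists_valH (B := B) (m := c') (mem_pieceSub.2 fun d hd =>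
      valH_inj _ _ (by rw [valH_cp, e, hc d hd, map_zero]))
    exact ⟨c'', by rw [AddMonoidHom.comp_apply, e', e]⟩
  · rw [AddMonoidHom.comp_apply, valH_smul, valH_smul, valH_smul, e, Sp.kill_kill,
      Finset.inter_eq_right.2 h, AddMonoidHom.comp_apply]
  · rw [valH_gr, e]
    exact valH_gr.1 (valH_gr.1 ha)
end GM

open Classical in
/-- the retraction of the degrees onto those living in `B` -/
def piB (B : Finset ℕ) : D →+ D := Finsupp.filterAddHom fun i => ∀ b, i = some b → b ∈ B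
lemma piB_none (B : Finset ℕ) (d : D) : piB B d none = d none :=
  Finsupp.filter_apply_pos _ _ (by simp)
lemma piB_pos {B : Finset ℕ} (d : D) {b : ℕ} (h : b ∈ B) : piB B d (some b) = d (some b) :=
  Finsupp.filter_apply_pos _ _ (by simpa)
lemma piB_mem (B : Finset ℕ) (d : D) : piB B d ∈ DS B := fun b hb =>
  Finsupp.filter_apply_neg _ _ (by simpa)
lemma piB_of_mem {B : Finset ℕ} {d : D} (h : d ∈ DS B) : piB B d = d := by
  ext i
  cases i with
  | none => exact piB_none B d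
  | some b =>
    by_cases hb : b ∈ B
    · exact piB_pos d hb
    · rw [piB_mem B d b hb, h b hb]

/-- the action of the group ring of degrees on `G X` -/
def rhoG (X : Spc) : Lm →ₐ[ℤ] Module.End ℤ (G X) :=
  rho (fun d => sh X (piB X.B d)) (fun a => by rw [map_zero, sh_zero])
    fun d e a => by rw [map_add, sh_add (piB_mem _ _) (piB_mem _ _)]
lemma rhoG_xd {d : D} (hd : d ∈ DS X.B) (a : G X) : rhoG X (xd d) a = sh X d a := by
  rw [rhoG, rho_xd, piB_of_mem hd]

lemma rhoG_kos_cl (V : Finset Var) (hV : ∀ v ∈ V, v.1 ∈ X.B) {M : GM} (hM : M.On X)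
    (hk : ∀ x ∈ X.pts, (∀ v ∈ V, x v = 0) → M.Kill x) : rhoG X (kos V) (cl X M) = 0 := by
  classical
  induction V using Finset.induction_on generalizing M with
  | empty => rw [cl_irr fun x hx => hk x hx (by simp), map_zero]
  | insert v V hv ih =>
    have hd : vdeg v ∈ DS X.B := vdeg_mem (hV v (by simp))
    have hV' : ∀ w ∈ V, w.1 ∈ X.B := fun w hw => hV w (by simp [hw])
    let f : M.M →ₗ[R] (M.shift (vdeg v)).M := LinearMap.lsmul R M.M (MvPolynomial.X v)
    have hf : Deg0 f := deg0_of_gr fun e m hm => by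
      rw [shift_gr, add_comm]; exact M.smul_mem_gr (Hmg.X v) hm
    have hs := hM.shift hd
    have h1 := cl_ses (ses_ker_range hf) hM
    have h2 := cl_ses (ses_sub_quot hf.stab_range) hs
    have h3 := ih hV' (hM.sub hf.stab_ker) fun x hx h0 => by
      by_cases hxv : x v = 0
      · obtain ⟨r, hr, h⟩ := hk x hx (by simpa [hxv] using h0)
        exact ⟨r, hr, fun m => Subtype.ext (h m.1)⟩
      · exact ⟨MvPolynomial.X v, by rwa [eval_X], fun m => Subtype.ext m.2⟩
    have h4 := ih hV' (hs.quot hf.stab_range) fun x hx h0 => by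
      by_cases hxv : x v = 0
      · obtain ⟨r, hr, h⟩ := hk x hx (by simpa [hxv] using h0)
        refine ⟨r, hr, fun m => ?_⟩
        obtain ⟨m, rfl⟩ := Submodule.Quotient.mk_surjective _ m
        exact (Submodule.Quotient.mk_eq_zero _).2 ⟨0, (map_zero f).trans (h m).symm⟩
      · refine ⟨MvPolynomial.X v, by rwa [eval_X], fun m => ?_⟩
        obtain ⟨m, rfl⟩ := Submodule.Quotient.mk_surjective _ m
        exact (Submodule.Quotient.mk_eq_zero _).2 ⟨m, rfl⟩
    rw [kos, Finset.prod_insert hv, ← kos, mul_comm, map_mul, Module.End.mul_apply, map_sub,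
      map_one, LinearMap.sub_apply, Module.End.one_apply, rhoG_xd hd, sh_cl hd hM, h1, h2,
      map_sub, map_add, map_add, h3, h4]
    abel
lemma rhoG_kos {b : ℕ} (hb : b ∈ X.B) (V : Finset Var) (hV : ∀ v ∈ V, v.1 ∈ X.B)
    (h : ∀ x ∈ X.pts, ∀ v : Var, v.1 = b → x v ≠ 0 → v ∈ V) (a : G X) :
    rhoG X (kos V) a = 0 := by
  induction a using G.ind with
  | h0 => exact map_zero _
  | hcl M hM =>
    refine rhoG_kos_cl V hV hM fun x hx h0 => ?_
    obtain ⟨v, hv, hv'⟩ := X.rel x hx b hb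
    exact absurd (h0 v (h x hx v hv hv')) hv'
  | hneg a ha => rw [map_neg, ha, neg_zero]
  | hadd a b ha hb => rw [map_add, ha, hb, add_zero]
lemma exists_kos (X : Spc) : ∃ V : Finset Var, ∀ b ∈ X.B, ∀ a : G X,
    rhoG X (kos (V.filter fun v => v.1 = b)) a = 0 := by
  obtain ⟨V, hV, h⟩ := X.fin
  refine ⟨V, fun b hb => rhoG_kos hb _ (fun v hv => hV v (Finset.mem_filter.1 hv).1)
    fun x hx v hv h0 => Finset.mem_filter.2 ⟨?_, hv⟩⟩
  by_contra hc
  exact h0 (h x hx v hc)

/-- a class is a combination of high twists in any set of blocks -/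
theorem cl_mem_of_big {S : Finset ℕ} (hS : S ⊆ Y.B) (P : AddSubgroup (G Y))
    (hT : ∀ k : ℤ, ∀ a ∈ P, sh Y (k • eT) a ∈ P) (a : G Y) (k : ℤ)
    (hb : ∀ d ∈ DS S, d none = 0 → Bg S k d → sh Y d a ∈ P) : a ∈ P := by
  obtain ⟨V, hV⟩ := exists_kos Y
  have h1 : ∀ a, rhoG Y (U S V) a = a := fun a => by
    have := one_sub_U (S := S) (rhoG Y) ⊥ (fun c _ n hn => by simp_all) V (n := a)
      fun b hb => hV b (hS hb) a
    rw [AddSubgroup.mem_bot, map_sub, map_one, LinearMap.sub_apply, sub_eq_zero] at this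
    exact this.symm
  have h2 : ∀ n : ℕ, rhoG Y (U S V ^ n) a = a := fun n => by
    induction n with
    | zero => simp
    | succ n ih => rw [pow_succ', map_mul, Module.End.mul_apply, ih, h1]
  rw [← h2 k.toNat]
  refine W_ind (P := fun c => rhoG Y c a ∈ P) (fun d hd hk => ?_) (by simp)
    (fun _ _ h h' => by simpa using add_mem h h') (fun _ h => by simpa using h)
    (U_pow_mem V k.toNat)
  have h3 : d none • eT ∈ DS S := zsmul_mem (eT_mem S) _
  have h4 := sub_mem hd h3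
  rw [rhoG_xd (DS_mono hS hd), ← add_sub_cancel (d none • eT) d,
    sh_add (DS_mono hS h3) (DS_mono hS h4)]
  refine hT _ _ (hb _ h4 (by simp [eT]) fun b hb => ?_)
  have := hk b hb
  simp only [eT, Finsupp.coe_sub, Finsupp.coe_smul, Pi.sub_apply, Pi.smul_apply, smul_eq_mul]
  rw [Finsupp.single_eq_of_ne (by simp)]
  omega

lemma exists_eval_bsc₂ {c : ℕ → ℂ} (hc : ∀ b, c b ≠ 0) {d d' : D}
    (h : ∀ b, d (some b) = d' (some b)) : ∃ a : ℂ, ∀ x r r', Hmg d r → Hmg d' r' →
      eval (Sp.bsc c x) r = a * eval x r ∧ eval (Sp.bsc c x) r' = a * eval x r' := by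
  obtain ⟨t, ht, -, hT⟩ := Sp.exists_tor_eq c hc 1 one_ne_zero
  have h1 : ∀ x, Sp.bsc c x = tpt t x := fun x => funext fun v => by simp [ht, Sp.bsc]
  have h2 : d' = d + (d' none - d none) • eT := by
    ext i; cases i <;> simp [eT, h]
  refine ⟨t (Multiplicative.ofAdd d), fun x r r' hr hr' => ⟨by rw [h1, hr.eval_tpt], ?_⟩⟩
  rw [h1, hr'.eval_tpt, h2, ofAdd_add, map_mul, ofAdd_zsmul, map_zpow, Units.val_mul,
    Units.val_zpow_eq_zpow_val, hT, one_zpow, mul_one]

end Crest.Agent.N265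
end
end

-- ▼ part N265/G/Push

/-! # Task G5: push-forward along projections, elimination -/

set_option autoImplicit false
noncomputable section
open MvPolynomial

namespace Crest.Agent.N265
open GM
variable {X Y Z : Spc}

/-- `d` lives in the blocks of `Y` outside `X` and is at least `k` there -/
def Big (Y X : Spc) (k : ℤ) (d : D) : Prop :=
  d none = 0 ∧ (∀ b, b ∈ X.B ∨ b ∉ Y.B → d (some b) = 0) ∧ ∀ b ∈ Y.B, b ∉ X.B → k ≤ d (some b)

lemma big_iff {k : ℤ} {d : D} :
    Big Y X k d ↔ d ∈ DS (Y.B \ X.B) ∧ d none = 0 ∧ PA.Bg (Y.B \ X.B) k d :=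
  ⟨fun h => ⟨fun b hb => h.2.1 b (by simp only [Finset.mem_sdiff] at hb; tauto), h.1,
    fun b hb => h.2.2 b (Finset.mem_sdiff.1 hb).1 (Finset.mem_sdiff.1 hb).2⟩,
   fun h => ⟨h.2.1, fun b hb => h.1 b (by simp only [Finset.mem_sdiff]; tauto),
    fun b hb hb' => h.2.2 b (Finset.mem_sdiff.2 ⟨hb, hb'⟩)⟩⟩
lemma Big.mono {k k' : ℤ} {d : D} (h : Big Y X k d) (hk : k' ≤ k) : Big Y X k' d :=
  ⟨h.1, h.2.1, fun b hb hb' => hk.trans (h.2.2 b hb hb')⟩
lemma Big.mem_DS {k : ℤ} {d : D} (h : Big Y X k d) : d ∈ DS Y.B :=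
  fun b hb => h.2.1 b (Or.inr hb)
lemma Big.add {k : ℤ} {d e : D} (h : Proj Z Y) (h' : Proj Y X) (hd : Big Z Y k d)
    (he : Big Y X k e) : Big Z X k (e + d) := by
  refine ⟨by rw [Finsupp.add_apply, hd.1, he.1, add_zero], fun b hb => ?_, fun b hb hb' => ?_⟩
  · rw [Finsupp.add_apply, hd.2.1 b (hb.imp (fun h1 => h'.sub h1) id),
      he.2.1 b (hb.imp id fun h1 h2 => h1 (h.sub h2)), add_zero]
  · rw [Finsupp.add_apply]
    by_cases hY : b ∈ Y.B
    · rw [hd.2.1 b (Or.inl hY), add_zero]; exact he.2.2 b hY hb'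
    · rw [he.2.1 b (Or.inr hY), zero_add]; exact hd.2.2 b hb hY
lemma Big.exists (Y X : Spc) (k : ℤ) : ∃ d, Big Y X k d := by
  refine ⟨∑ b ∈ Y.B \ X.B, k • eB b, big_iff.2
    ⟨sum_mem fun b hb => zsmul_mem (eB_mem hb) k, by simp [eB, Finsupp.finsetSum_apply],
      fun b hb => le_of_eq ?_⟩⟩
  simp [eB, Finsupp.finsetSum_apply, Finsupp.single_apply, hb, -Finset.mem_sdiff]

lemma GM.On.piece (h : Proj Y X) {M : GM} (hM : M.On Y) :
    ∃ k, ∀ d, Big Y X k d → (piece X.B (M.shift d)).On X :=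
  (hM.piece_bg h).imp fun _ hk d hd => hk d (big_iff.1 hd).2.2
/-- properness -/
lemma GM.Irr.piece (h : Proj Y X) {M : GM} (hM : M.On Y) (hi : M.Irr Y) :
    ∃ k, ∀ d, Big Y X k d → (piece X.B (M.shift d)).Irr X :=
  have _ := h
  (Irr.piece_bg X hM hi).imp fun _ hk d hd => hk d (big_iff.1 hd).2.2
/-- the Koszul relation of a block: if the variables of block `b` outside `V` vanish on `X` -/
theorem koszul_block {b : ℕ} (hb : b ∈ X.B) (V : Finset Var) (hV : ∀ v ∈ V, v.1 = b)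
    (h : ∀ x ∈ X.pts, ∀ v : Var, v.1 = b → x v ≠ 0 → v ∈ V) (a : G X) :
    ∑ S ∈ V.powerset, (-1 : ℤ) ^ S.card • sh X (-∑ v ∈ S, vdeg v) a = 0 := by
  have hV' : ∀ v ∈ V, v.1 ∈ X.B := fun v hv => hV v hv ▸ hb
  have h1 : ∏ v ∈ V, (1 + -PA.xd (-vdeg v)) = (∏ v ∈ V, -PA.xd (-vdeg v)) * PA.kos V := by
    rw [PA.kos, ← Finset.prod_mul_distrib]
    refine Finset.prod_congr rfl fun v _ => ?_
    rw [mul_sub, neg_mul _ (PA.xd _), ← PA.xd_add, neg_add_cancel, PA.xd_zero]; ring
  have h2 := congrArg (fun c => rhoG X c a) h1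
  simp only [map_mul, Module.End.mul_apply, rhoG_kos hb V hV' h a, map_zero] at h2
  rw [Finset.prod_one_add, map_sum, LinearMap.sum_apply] at h2
  rw [← h2]
  refine Finset.sum_congr rfl fun S hS => ?_
  rw [Finset.prod_neg, ← PA.xd_sum, Finset.sum_neg_distrib, map_mul, Module.End.mul_apply,
    rhoG_xd (neg_mem (sum_mem fun v hv => vdeg_mem (hV' v (Finset.mem_powerset.1 hS hv))))]
  rcases neg_one_pow_eq_or ℤ S.card with e | e
  · rw [e, one_smul, show (-1 : PA.Lm) ^ S.card = ((-1 : ℤ) ^ S.card : ℤ) by simp, e]; simp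
  · rw [e, neg_one_smul, show (-1 : PA.Lm) ^ S.card = ((-1 : ℤ) ^ S.card : ℤ) by simp, e]; simp

/-- characterisation of the push-forward -/
structure IsPush (Y X : Spc) (Φ : G Y →+ G X) : Prop where
  sh : ∀ d ∈ DS X.B, ∀ a, Φ (sh Y d a) = sh X d (Φ a)
  big : ∀ M : GM, M.On Y → ∃ k, ∀ d, Big Y X k d →
    Φ (cl Y (M.shift d)) = cl X (piece X.B (M.shift d))
/-- two homomorphisms out of `G Y` commuting with `t` that agree on high twists agree -/
theorem G.ext_big (h : Proj Y X) (P : AddSubgroup (G Y))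
    (hT : ∀ k : ℤ, ∀ a ∈ P, sh Y (k • eT) a ∈ P)
    (hb : ∀ M : GM, M.Red Y → ∃ k, ∀ d, Big Y X k d → cl Y (M.shift d) ∈ P) : P = ⊤ := by
  have _ := h
  refine eq_top_iff.2 fun a _ => G.ind_red (P := fun a => a ∈ P) P.zero_mem (fun M hM => ?_)
    (fun _ => P.neg_mem) (fun _ _ => P.add_mem) a
  obtain ⟨k, hk⟩ := hb M hM
  refine cl_mem_of_big (S := Y.B \ X.B) Finset.sdiff_subset P hT _ k fun d h1 h2 h3 => ?_
  rw [sh_cl (DS_mono Finset.sdiff_subset h1) hM.on]
  exact hk d (big_iff.2 ⟨h1, h2, h3⟩)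

theorem IsPush.uniq (h : Proj Y X) {Φ Ψ : G Y →+ G X} (hΦ : IsPush Y X Φ) (hΨ : IsPush Y X Ψ) :
    Φ = Ψ := by
  have := G.ext_big h (Φ.eqLocus Ψ) (fun k a (ha : Φ a = Ψ a) => show Φ _ = Ψ _ by
    rw [hΦ.sh _ (zsmul_mem (eT_mem _) k), hΨ.sh _ (zsmul_mem (eT_mem _) k), ha]) fun M hM => by
      obtain ⟨k, hk⟩ := hΦ.big M hM.on
      obtain ⟨j, hj⟩ := hΨ.big M hM.on
      exact ⟨max k j, fun d hd => (hk d (hd.mono (le_max_left _ _))).trans
        (hj d (hd.mono (le_max_right _ _))).symm⟩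
  exact AddMonoidHom.ext fun a => this.ge (AddSubgroup.mem_top a)
theorem exists_push (Y X : Spc) : ∃ Φ : G Y →+ G X, Proj Y X → IsPush Y X Φ := by
  by_cases h : Proj Y X
  swap
  · exact ⟨0, fun h' => absurd h' h⟩
  obtain ⟨V, hV⟩ := exists_kos Y
  obtain ⟨L, L1, L2, L3, L4⟩ := PA.exists_lim (Y.B \ X.B) V (G X)
  obtain ⟨a, ha⟩ : ∃ a : GM → D → G X, ∀ M d, a M d = cl X (piece X.B (M.shift d)) :=
    ⟨_, fun _ _ => rfl⟩
  have hses : ∀ A B C : GM, SES A B C → B.On Y → a B - (a A + a C) ∈ PA.Ev0 (Y.B \ X.B) (G X) := by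
    intro A B C hs hB
    obtain ⟨k, hk⟩ := hB.piece_bg h
    exact ⟨k, fun d hd => by
      rw [Pi.sub_apply, Pi.add_apply, ha, ha, ha, cl_ses ((hs.shift d).piece X.B) (hk d hd),
        sub_self]⟩
  have hirr : ∀ A : GM, A.On Y → A.Irr Y → a A ∈ PA.Ev0 (Y.B \ X.B) (G X) := by
    intro A hA hi
    obtain ⟨k, hk⟩ := Irr.piece_bg X hA hi
    exact ⟨k, fun d hd => by rw [ha, cl_irr (hk d hd)]⟩
  have hsh : ∀ (M : GM) (d : D), a (M.shift d) = fun e => a M (e + d) := fun M d =>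
    funext fun e => by rw [ha, ha, ((iso_shift_shift M d e).piece X.B).cl]
  obtain ⟨Φ₀, hΦ₀⟩ := G.exists_lift (X := Y)
    (fun M => (QuotientAddGroup.mk (a M) : (D → G X) ⧸ PA.Ev0 (Y.B \ X.B) (G X)))
    (fun A B C hs hB => by
      rw [← QuotientAddGroup.mk_add, QuotientAddGroup.eq_iff_sub_mem]; exact hses A B C hs hB)
    fun A hA hi => (QuotientAddGroup.eq_zero_iff _).2 (hirr A hA hi)
  have hst : ∀ M : GM, M.On Y →
      PA.rhoF (G X) (1 - PA.U (Y.B \ X.B) V) (a M) ∈ PA.Ev0 (Y.B \ X.B) (G X) := by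
    intro M hM
    refine PA.one_sub_U _ _ (fun c hc f hf => PA.rhoF_ev0 hc hf) V fun b hb => ?_
    have key : ∀ c ∈ PA.W (Y.B \ X.B) 0, Φ₀ (rhoG Y c (cl Y M)) =
        QuotientAddGroup.mk (PA.rhoF (G X) c (a M)) := fun c hc =>
      PA.W_ind (P := fun c => Φ₀ (rhoG Y c (cl Y M)) =
          QuotientAddGroup.mk (PA.rhoF (G X) c (a M)))
        (fun d hd _ => by
          have hd' := DS_mono Finset.sdiff_subset hd
          rw [rhoG_xd hd', sh_cl hd' hM, hΦ₀ _ (hM.shift hd'), hsh, PA.rhoF_xd])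
        (by simp) (fun _ _ h1 h2 => by simp [h1, h2]) (fun _ h1 => by simp [h1]) hc
    rw [← QuotientAddGroup.eq_zero_iff, ← key _ (PA.kos_mem_zero hb V),
      hV b (Finset.mem_sdiff.1 hb).1, map_zero]
  obtain ⟨Φ, hΦ⟩ := G.exists_lift (X := Y) (fun M => L (a M))
    (fun A B C hs hB => L1 _ _ _ (hst A (hs.on_left hB)) (hst C (hs.on_right hB))
      (hses A B C hs hB)) fun A hA hi => L2 _ (hirr A hA hi)
  refine ⟨Φ, fun _ => ⟨fun d hd => DFunLike.congr_fun (G.hom_ext (φ := Φ.comp (sh Y d))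
    (ψ := (sh X d).comp Φ) fun M hM => ?_), fun M hM => ?_⟩⟩
  · have hd' := DS_mono h.sub hd
    rw [AddMonoidHom.comp_apply, AddMonoidHom.comp_apply, sh_cl hd' hM, hΦ _ (hM.shift hd'),
      hΦ _ hM]
    refine L4 (sh X d) _ _ (hst M hM) ?_
    obtain ⟨k, hk⟩ := hM.piece_bg h
    refine ⟨k, fun e he => ?_⟩
    rw [Pi.sub_apply, hsh]
    simp only [ha]
    rw [sh_cl hd (hk e he), (iso_piece_shift X.B M e hd).cl, add_comm, sub_self]
  · obtain ⟨k, hk⟩ := L3 _ (hst M hM)
    exact ⟨k, fun d hd => by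
      rw [hΦ _ (hM.shift hd.mem_DS), hsh, hk d (big_iff.1 hd).2.2, ha]⟩
/-- push-forward -/
def push (Y X : Spc) : G Y →+ G X := (exists_push Y X).choose
lemma isPush (h : Proj Y X) : IsPush Y X (push Y X) := (exists_push Y X).choose_spec h
lemma push_sh (h : Proj Y X) {d : D} (hd : d ∈ DS X.B) (a : G Y) :
    push Y X (sh Y d a) = sh X d (push Y X a) := (isPush h).sh d hd a
theorem push_eq_incl (h : Y.Sub X) : push Y X = incl Y X :=
  (isPush h.proj).uniq h.proj ⟨fun _ hd => incl_sh h hd, fun M hM => ⟨0, fun d hd => by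
    have := hM.shift hd.mem_DS
    rw [incl_cl h this, (iso_piece_self (this.mono h).deg).cl]⟩⟩
theorem push_self (a : G X) : push X X a = a := by
  rw [push_eq_incl (Spc.Sub.refl X), dv_incl_self]
theorem push_push (h : Proj Z Y) (h' : Proj Y X) (a : G Z) :
    push Y X (push Z Y a) = push Z X a := by
  have h'' := h.trans h'
  have hT : ∀ k : ℤ, ∀ a ∈ ((push Y X).comp (push Z Y)).eqLocus (push Z X),
      sh Z (k • eT) a ∈ ((push Y X).comp (push Z Y)).eqLocus (push Z X) :=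
    fun k a (ha : push Y X (push Z Y a) = push Z X a) =>
      show push Y X (push Z Y _) = push Z X _ by
        rw [push_sh h (zsmul_mem (eT_mem _) k), push_sh h' (zsmul_mem (eT_mem _) k),
          push_sh h'' (zsmul_mem (eT_mem _) k), ha]
  refine (G.ext_big h _ hT fun M hM => ?_).ge (AddSubgroup.mem_top a)
  obtain ⟨k₁, h₁⟩ := (isPush h).big M hM.on
  obtain ⟨k₂, h₂⟩ := hM.on.piece h
  obtain ⟨k₃, h₃⟩ := (isPush h'').big M hM.on
  refine ⟨max (max k₁ k₂) k₃, fun d hd => ?_⟩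
  have hN := h₂ d (hd.mono (le_max_of_le_left (le_max_right _ _)))
  obtain ⟨k₄, h₄⟩ := (isPush h').big _ hN
  refine cl_mem_of_big (S := Y.B \ X.B) (Finset.sdiff_subset.trans h.sub) _ hT _ (max k₄ k₃)
    fun e e1 e2 e3 => ?_
  have he : Big Y X (max k₄ k₃) e := big_iff.2 ⟨e1, e2, e3⟩
  change push Y X (push Z Y _) = push Z X _
  rw [push_sh h he.mem_DS, h₁ d (hd.mono (le_max_of_le_left (le_max_left _ _))),
    sh_cl he.mem_DS hN, h₄ e (he.mono (le_max_left _ _)),
    sh_cl (DS_mono h.sub he.mem_DS) (hM.on.shift hd.mem_DS), ← cl_shift_add,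
    h₃ _ ((hd.mono (le_max_right _ _)).add h h' (he.mono (le_max_right _ _))),
    (((iso_piece_shift Y.B M d he.mem_DS).piece X.B).trans (iso_piece_piece h'.sub _)).cl]
/-- a point pushes to a point -/
theorem push_one_pt {P Q : Spc} {w : ℕ → ℤ} (hP : P.IsPt w) (hQ : Q.IsPt w) (h : Proj P Q) :
    push P Q (one P) = one Q := by
  obtain ⟨x, hx, -⟩ := hP.2
  choose! v hv hv' using P.rel x hx
  obtain ⟨k₁, h₁⟩ := (isPush h).big _ (red_O P).on
  obtain ⟨k₂, h₂⟩ := (red_O P).on.piece h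
  obtain ⟨n, hn⟩ : ∃ n : ℕ, max k₁ k₂ ≤ n := ⟨_, Int.self_le_toNat _⟩
  have hSP : ∀ b ∈ P.B \ Q.B, b ∈ P.B := fun b hb => (Finset.mem_sdiff.1 hb).1
  have hdeg : ∀ b ∈ P.B, vdeg (v b) = eB b + w b • eT := fun b hb => by
    rw [vdeg, hP.1 x hx _ (hv' b hb), hv b hb]
  obtain ⟨d, hd⟩ : ∃ d : D, d = ∑ b ∈ P.B \ Q.B, (n : ℤ) • eB b := ⟨_, rfl⟩
  obtain ⟨j, hj⟩ : ∃ j : ℤ, j = ∑ b ∈ P.B \ Q.B, n * w b := ⟨_, rfl⟩
  have hbig : Big P Q n d := hd ▸ big_iff.2
    ⟨sum_mem fun b hb => zsmul_mem (eB_mem hb) _, by simp [eB, Finsupp.finsetSum_apply],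
      fun b hb => le_of_eq (by
        simp [eB, Finsupp.finsetSum_apply, Finsupp.single_apply, hb, -Finset.mem_sdiff])⟩
  have hδ : j • eT + d = ∑ b ∈ P.B \ Q.B, n • vdeg (v b) := by
    rw [hd, hj, Finset.sum_smul, ← Finset.sum_add_distrib]
    refine Finset.sum_congr rfl fun b hb => ?_
    rw [hdeg b (hSP b hb), ← natCast_zsmul, smul_add, mul_smul, add_comm]
  have hfix : ∀ T ⊆ P.B, ∀ a, sh P (∑ b ∈ T, n • vdeg (v b)) a = a := by
    intro T hT
    induction T using Finset.induction_on with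
    | empty => simpa using sh_zero
    | insert b T hb ih =>
      have hbP : b ∈ P.B := hT (by simp)
      have hT' : T ⊆ P.B := fun c hc => hT (by simp [hc])
      have h1 : vdeg (v b) ∈ DS P.B := vdeg_mem (by rwa [hv b hbP])
      intro a
      rw [Finset.sum_insert hb, sh_add (nsmul_mem h1 n) (sum_mem fun c hc =>
        nsmul_mem (vdeg_mem (by rw [hv c (hT' hc)]; exact hT' hc)) n), ih hT', ← natCast_zsmul]
      exact dv_sh_zsmul h1 (fun a => by rw [hdeg b hbP]; exact hP.sh_block hbP a) _ a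
  have hjT : ∀ B, j • eT ∈ DS B := fun B => zsmul_mem (eT_mem B) j
  rw [← hfix _ Finset.sdiff_subset (one P), ← hδ, sh_add (hjT _) hbig.mem_DS, push_sh h (hjT _),
    one, sh_cl hbig.mem_DS (red_O P).on, h₁ d (hbig.mono (le_of_max_le_left hn)),
    sh_cl (hjT _) (h₂ d (hbig.mono (le_of_max_le_right hn))),
    (iso_piece_shift Q.B _ d (hjT _)).cl]
  -- the multiplication by the monomial `μ`
  obtain ⟨μ, hμ⟩ : ∃ μ : R, μ = ∏ b ∈ P.B \ Q.B, MvPolynomial.X (v b) ^ n := ⟨_, rfl⟩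
  have hμh : Hmg (j • eT + d) μ := by
    rw [hδ, hμ]; exact Hmg.prod _ fun b _ => (Hmg.X _).pow n
  have hμx : ∀ c : ℕ → ℂ, (∀ b, c b ≠ 0) → eval (Sp.bsc c x) μ ≠ 0 := fun c hc => by
    rw [hμ, map_prod]
    exact Finset.prod_ne_zero_iff.2 fun b hb => by
      rw [map_pow, eval_X]; exact pow_ne_zero _ (mul_ne_zero (hc _) (hv' b (hSP b hb)))
  generalize hδ' : j • eT + d = δ at hμh
  have hδ0 : ∀ b ∈ Q.B, δ (some b) = 0 := fun b hb => by
    rw [← hδ', Finsupp.add_apply, hbig.2.1 b (Or.inl hb)]; simp [eT]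
  have hred : (piece Q.B ((O P).shift δ)).Red Q := Red.piece h (red_O P).ann
  have hm0 : (Ideal.Quotient.mk P.I μ : ((O P).shift δ).M) ∈ ((O P).shift δ).gr 0 := by
    rw [shift_gr, zero_add]; exact (Oid_gr _ _).2 ⟨μ, hμh, rfl⟩
  obtain ⟨m₀, hm₀⟩ := exists_valH (B := Q.B) (M := (O P).shift δ)
    (AddSubgroup.subset_closure ⟨0, zero_mem _, hm0⟩)
  have hval : ∀ r : R, valH _ _ (dvSpan hred m₀ (Ideal.Quotient.mk Q.I r)) =
      Ideal.Quotient.mk P.I (kill Q.B r * μ) := fun r => by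
    rw [dvSpan_mk, valH_smul, hm₀]; rfl
  refine (cl_bij (f := dvSpan hred m₀) (deg0_of_gr fun e q hq => ?_)
    ⟨(injective_iff_map_eq_zero _).2 fun q hq => ?_, fun m => ?_⟩).symm
  · obtain ⟨r, hr, rfl⟩ := (Oid_gr _ _).1 hq
    have := (piece Q.B ((O P).shift δ)).smul_mem_gr hr (valH_gr.2 (hm₀ ▸ hm0))
    rwa [add_zero] at this
  · obtain ⟨r, rfl⟩ := Ideal.Quotient.mk_surjective (I := Q.I) q
    have h1 := hval r
    rw [hq, map_zero] at h1
    have h2 := Ideal.Quotient.eq_zero_iff_mem.1 h1.symm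
    refine Ideal.Quotient.eq_zero_iff_mem.2 fun y hy => ?_
    obtain ⟨c, hc, e⟩ := hQ.exists_scal (h.map x hx) hy
    have h3 := h2 _ (Sp.bsc_mem hx fun b _ => hc b)
    rw [map_mul, eval_kill, Sp.restr_bsc] at h3
    rw [show y = Sp.bsc c (restr Q.B x) from funext e]
    exact (mul_eq_zero.1 h3).resolve_right (hμx c hc)
  · have key : ∀ q ∈ pieceSub Q.B ((O P).shift δ), ∃ r : R,
        Ideal.Quotient.mk P.I (kill Q.B r * μ) = q := by
      intro q hq
      induction hq using AddSubgroup.closure_induction with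
      | mem q hq =>
        obtain ⟨e, he, hq⟩ := hq
        rw [shift_gr] at hq
        obtain ⟨s, hs, rfl⟩ := (Oid_gr _ _).1 hq
        by_cases hneg : ∃ b ∈ Q.B, e (some b) < 0
        · obtain ⟨b, hb, hb'⟩ := hneg
          refine ⟨0, ?_⟩
          rw [hs.eq_zero_of_neg (b := b) (by rwa [Finsupp.add_apply, hδ0 b hb, add_zero])]
          simp
        push Not at hneg
        obtain ⟨ν, hν⟩ : ∃ ν : R, ν = ∏ b ∈ Q.B, MvPolynomial.X (v b) ^ (e (some b)).toNat :=
          ⟨_, rfl⟩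
        have hνh : Hmg (∑ b ∈ Q.B, (e (some b)).toNat • vdeg (v b)) ν := by
          rw [hν]; exact Hmg.prod _ fun b _ => (Hmg.X _).pow _
        have hνk : kill Q.B ν = ν := hνh.kill_eq_self (sum_mem fun b hb =>
          nsmul_mem (vdeg_mem (by rwa [hv b (h.sub hb)])) _)
        have hνx : eval x (ν * μ) ≠ 0 := by
          have h1 := hμx (fun _ => 1) fun _ => one_ne_zero
          rw [show Sp.bsc (fun _ => 1) x = x from funext fun _ => one_mul _] at h1
          rw [map_mul, hν, map_prod]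
          exact mul_ne_zero (Finset.prod_ne_zero_iff.2 fun b hb => by
            rw [map_pow, eval_X]; exact pow_ne_zero _ (hv' b (h.sub hb))) h1
        refine ⟨C (eval x s / eval x (ν * μ)) * ν, Ideal.Quotient.eq.2 fun y hy => ?_⟩
        obtain ⟨c, hc, e'⟩ := hP.exists_scal hx hy
        obtain ⟨a, ha⟩ := exists_eval_bsc₂ hc (d := e + δ)
          (d' := ∑ b ∈ Q.B, (e (some b)).toNat • vdeg (v b) + δ) fun b => by
            rw [Finsupp.add_apply, Finsupp.add_apply, Finsupp.finsetSum_apply,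
              Finset.sum_congr rfl fun c hc => by
                rw [Finsupp.smul_apply, PA.vdeg_apply, hv c (h.sub hc)]]
            by_cases hb : b ∈ Q.B
            · simp [hb, hneg b hb]
            · simp [hb, he b hb]
        obtain ⟨e1, e2⟩ := ha x s _ hs (hνh.mul hμh)
        rw [show y = Sp.bsc c x from funext e', map_mul (kill Q.B), Sp.kill_C, hνk, mul_assoc,
          map_sub, map_mul, eval_C, e1, e2]
        field_simp
        ring
      | zero => exact ⟨0, by rw [map_zero, zero_mul, map_zero]; rfl⟩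
      | add a b _ _ ha hb =>
        obtain ⟨r, rfl⟩ := ha
        obtain ⟨s, rfl⟩ := hb
        exact ⟨r + s, by rw [map_add, add_mul, map_add]; rfl⟩
      | neg a _ ha =>
        obtain ⟨r, rfl⟩ := ha
        exact ⟨-r, by rw [map_neg, neg_mul, map_neg]; rfl⟩
    obtain ⟨r, hr⟩ := key _ (valH_mem m)
    exact ⟨Ideal.Quotient.mk Q.I r, valH_inj _ _ ((hval r).trans hr)⟩

end Crest.Agent.N265
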